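import Vale.Agent.P119.M.Alive

/-!
# P119: the M-world, statuses (`helper472`)

* `live W T t`: `T` (possibly in its last collision) has no hit before `t`; `alive = live ∧ ext ≤ t`;
* `lives W T t`: no hit up to `t` included; right-continuous; exactly one tree per living particle
  (`lives_unique`); `stat W a t : Option CTree` is this tree;
* `live_swap`, `lives_swap`: the partner of a collision;
* `cur T s`: the earlier history of the root of `T` at time `s` (`lives_cur`);
* `mpos W a t` position and velocity of a living particle, `partner`, `bad`.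
-/

open MeasureTheory Filter Topology Set
open scoped ENNReal NNReal

noncomputable section

namespace Vale.Agent.P119.M

open KU CTree

variable {Φ : E3 → ℝ} {ε : ℝ} {L : ℕ} {W : Set Src}

/-- `T` is a tree of `W` which has begun its last collision, without hit before `t`. -/
structure live (Φ : E3 → ℝ) (ε : ℝ) (L : ℕ) (W : Set Src) (T : CTree) (t : ℝ) : Prop where
  sub : T.leaves ⊆ W
  ok : T.ok Φ ε
  depth : T.depth ≤ L
  sig_le : T.sig Φ ε ≤ t
  nohit : ∀ T' s, s < t → hit Φ ε T T' s → ¬alive Φ ε L W T' s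

/-- The same, without hit up to the time `t` included. -/
structure lives (Φ : E3 → ℝ) (ε : ℝ) (L : ℕ) (W : Set Src) (T : CTree) (t : ℝ) : Prop where
  sub : T.leaves ⊆ W
  ok : T.ok Φ ε
  depth : T.depth ≤ L
  sig_le : T.sig Φ ε ≤ t
  nohit : ∀ T' s, s ≤ t → hit Φ ε T T' s → ¬alive Φ ε L W T' s

theorem sig_le_ext (hΦ : IsPotential Φ) (hε : 0 < ε) {T : CTree} (h : ok Φ ε T) :
    sig Φ ε T ≤ ext Φ ε T := by
  cases T with
  | leaf σ => exact le_rfl
  | node a b => exact (sig_lt_ext hΦ hε h).le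

theorem lives.live {T : CTree} {t : ℝ} (h : lives Φ ε L W T t) : live Φ ε L W T t :=
  ⟨h.sub, h.ok, h.depth, h.sig_le, fun T' s hs => h.nohit T' s hs.le⟩

theorem alive_iff_live (hΦ : IsPotential Φ) (hε : 0 < ε) (hW : W.Finite) {T : CTree} {t : ℝ} :
    alive Φ ε L W T t ↔ live Φ ε L W T t ∧ ext Φ ε T ≤ t := by
  rw [alive_iff hΦ hε hW]
  constructor
  · rintro ⟨h, h'⟩
    exact ⟨⟨h.sub, h.ok, h.depth, (sig_le_ext hΦ hε h.ok).trans h.ext_le, h'⟩, h.ext_le⟩
  · rintro ⟨h, h'⟩
    exact ⟨⟨h.sub, h.ok, h.depth, h'⟩, h.nohit⟩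

theorem live.anti {T : CTree} {s t : ℝ} (h : live Φ ε L W T t) (hst : s ≤ t)
    (hs : sig Φ ε T ≤ s) : live Φ ε L W T s :=
  ⟨h.sub, h.ok, h.depth, hs, fun T' r hr => h.nohit T' r (hr.trans_le hst)⟩

theorem lives.anti {T : CTree} {s t : ℝ} (h : lives Φ ε L W T t) (hst : s ≤ t)
    (hs : sig Φ ε T ≤ s) : lives Φ ε L W T s :=
  ⟨h.sub, h.ok, h.depth, hs, fun T' r hr => h.nohit T' r (hr.trans hst)⟩

theorem live.lives_of_lt {T : CTree} {s t : ℝ} (h : live Φ ε L W T t) (hst : s < t)
    (hs : sig Φ ε T ≤ s) : lives Φ ε L W T s :=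
  ⟨h.sub, h.ok, h.depth, hs, fun T' r hr => h.nohit T' r (hr.trans_lt hst)⟩

theorem lives.alive (hΦ : IsPotential Φ) (hε : 0 < ε) (hW : W.Finite) {T : CTree} {t : ℝ}
    (h : lives Φ ε L W T t) (ht : ext Φ ε T ≤ t) : alive Φ ε L W T t :=
  (alive_iff_live hΦ hε hW).2 ⟨h.live, ht⟩

/-- A tree without killing hit at `t` survives a little longer. -/
theorem lives_iff_live (hΦ : IsPotential Φ) (hε : 0 < ε) (hW : W.Finite) {T : CTree} {t : ℝ} :
    lives Φ ε L W T t ↔ ∃ s, t < s ∧ live Φ ε L W T s ∧ sig Φ ε T ≤ t := by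
  constructor
  · intro h
    -- the candidates for first hit times after `t`
    have hfin := times_finite (Φ := Φ) (ε := ε) (L := L) hW
    obtain ⟨s, hs, hs'⟩ : ∃ s, t < s ∧ ∀ r ∈ times Φ ε L W, t < r → s ≤ r := by
      have h1 : (times Φ ε L W ∩ Ioi t).Finite := hfin.inter_of_left _
      by_cases hne : (times Φ ε L W ∩ Ioi t).Nonempty
      · obtain ⟨r, hr, hr'⟩ := h1.exists_minimalFor id _ hne
        refine ⟨r, hr.2, fun u hu htu => ?_⟩
        by_contra hcon
        exact hcon (hr' ⟨hu, htu⟩ (le_of_not_ge hcon))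
      · refine ⟨t + 1, by linarith, fun u hu htu => absurd ⟨u, hu, htu⟩ hne⟩
    refine ⟨s, hs, ⟨h.sub, h.ok, h.depth, h.sig_le.trans hs.le, fun T' r hr hh ha => ?_⟩, h.sig_le⟩
    have h2 := fh_hit hΦ hε h.ok hh
    have h3 := fh_le hΦ hε h.ok hh
    have h4 : alive Φ ε L W T' (fh Φ ε T T') := alive_anti ha h3 (hit_ext_le h2)
    rcases le_or_gt (fh Φ ε T T') t with h5 | h5
    · exact h.nohit T' _ h5 h2 h4
    · have h6 : fh Φ ε T T' ∈ times Φ ε L W :=
        ⟨(T, T'), ⟨⟨h.sub, h.depth⟩, ⟨(alive_pre ha).sub, (alive_pre ha).depth⟩⟩, rfl⟩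
      exact absurd (hs' _ h6 h5) (not_le.2 (h3.trans_lt hr))
  · rintro ⟨s, hs, h, h'⟩
    exact h.lives_of_lt hs h'

/-! ### Heredity -/

theorem live_left (hΦ : IsPotential Φ) (hε : 0 < ε) (hW : W.Finite) {a b : CTree} {t : ℝ}
    (h : live Φ ε L W (node a b) t) : alive Φ ε L W a (sig Φ ε (node a b)) := by
  rw [alive_iff_live hΦ hε hW]
  refine ⟨⟨fun _ hx => h.sub (Or.inl hx), h.ok.1,
    (le_max_left a.depth b.depth).trans (Nat.le_of_succ_le h.depth),
    (sig_le_ext hΦ hε h.ok.1).trans h.ok.2.2.2.2.2.1.le, fun T' s hs hh => ?_⟩,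
    h.ok.2.2.2.2.2.1.le⟩
  exact h.nohit T' s (hs.trans_le h.sig_le)
    (Or.inl ⟨hs.le, Or.inl ⟨hh, fun hcon => hs.ne hcon.2⟩⟩)

theorem live_right (hΦ : IsPotential Φ) (hε : 0 < ε) (hW : W.Finite) {a b : CTree} {t : ℝ}
    (h : live Φ ε L W (node a b) t) : alive Φ ε L W b (sig Φ ε (node a b)) := by
  rw [alive_iff_live hΦ hε hW]
  refine ⟨⟨fun _ hx => h.sub (Or.inr hx), h.ok.2.1,
    (le_max_right a.depth b.depth).trans (Nat.le_of_succ_le h.depth),
    (sig_le_ext hΦ hε h.ok.2.1).trans h.ok.2.2.2.2.2.2.le, fun T' s hs hh => ?_⟩,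
    h.ok.2.2.2.2.2.2.le⟩
  exact h.nohit T' s (hs.trans_le h.sig_le)
    (Or.inl ⟨hs.le, Or.inr ⟨hh, fun hcon => hs.ne hcon.2⟩⟩)

/-- Before the end of the collision the two partners have the same hits. -/
theorem hit_swap (hΦ : IsPotential Φ) {a b T' : CTree} {s : ℝ}
    (hs : s < ext Φ ε (node a b)) (h : hit Φ ε (node a b) T' s) : hit Φ ε (node b a) T' s := by
  have hsig : sig Φ ε (node b a) = sig Φ ε (node a b) := sig_swap a b
  have hsw := pairLine_swap (ε := ε) hΦ (ln Φ ε a, ln Φ ε b) s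
  rw [Prod.swap_prod_mk] at hsw
  rcases h with ⟨h1, h2⟩ | ⟨h1, h2, h3, h4⟩
  · refine Or.inl ⟨by rw [hsig]; exact h1, ?_⟩
    rw [hsig]
    exact h2.symm
  · refine Or.inr ⟨by rw [hsig]; exact h1, h2, ?_, ?_⟩
    · change Disjoint (b.leaves ∪ a.leaves) _
      rw [union_comm]
      exact h3
    · rw [hsw]
      have he : ext Φ ε (node b a) = ext Φ ε (node a b) := ext_swap hΦ a b
      rw [he]
      rcases h4 with h4 | h4
      · exact Or.inr ⟨hs, h4⟩
      · exact Or.inl h4.2

theorem live_swap (hΦ : IsPotential Φ) {a b : CTree} {t : ℝ}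
    (h : live Φ ε L W (node a b) t) (ht : t ≤ ext Φ ε (node a b)) :
    live Φ ε L W (node b a) t := by
  have he : ext Φ ε (node b a) = ext Φ ε (node a b) := ext_swap hΦ a b
  refine ⟨?_, ok_swap hΦ h.ok, ?_, ?_, fun T' s hs hh => ?_⟩
  · change b.leaves ∪ a.leaves ⊆ W
    rw [union_comm]
    exact h.sub
  · have := h.depth
    simp only [CTree.depth] at this ⊢
    omega
  · rw [sig_swap a b]; exact h.sig_le
  · exact h.nohit T' s hs (hit_swap hΦ (by rw [he]; exact (hs.trans_le ht)) hh)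

theorem lives_swap (hΦ : IsPotential Φ) {a b : CTree} {t : ℝ}
    (h : lives Φ ε L W (node a b) t) (ht : t < ext Φ ε (node a b)) :
    lives Φ ε L W (node b a) t := by
  have he : ext Φ ε (node b a) = ext Φ ε (node a b) := ext_swap hΦ a b
  refine ⟨?_, ok_swap hΦ h.ok, ?_, ?_, fun T' s hs hh => ?_⟩
  · change b.leaves ∪ a.leaves ⊆ W
    rw [union_comm]
    exact h.sub
  · have := h.depth
    simp only [CTree.depth] at this ⊢
    omega
  · rw [sig_swap a b]; exact h.sig_le
  · exact h.nohit T' s hs (hit_swap hΦ (by rw [he]; exact (hs.trans_lt ht)) hh)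

theorem live_spine (hΦ : IsPotential Φ) (hε : 0 < ε) (hW : W.Finite) {S T : CTree} {t : ℝ}
    (h : live Φ ε L W T t) (hS : Spine S T) (hne : S ≠ T) :
    ∃ b t', Spine (node S b) T ∧ live Φ ε L W (node S b) t' ∧ t' ≤ t := by
  induction hS generalizing t with
  | refl => exact absurd rfl hne
  | @left a b hS ih =>
    by_cases hSa : S = a
    · subst hSa
      exact ⟨b, t, Spine.refl _, h, le_rfl⟩
    · obtain ⟨c, t', h1, h2, h3⟩ := ih ((alive_iff_live hΦ hε hW).1 (live_left hΦ hε hW h)).1 hSa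
      exact ⟨c, t', Spine.left b h1, h2, h3.trans h.sig_le⟩

/-- Two collisions of the same history are the same collision. -/
theorem lives_node_unique (hΦ : IsPotential Φ) (hε : 0 < ε) (hW : W.Finite) {S b c : CTree}
    {t t' : ℝ} (h : lives Φ ε L W (node S b) t) (h' : live Φ ε L W (node S c) t') : b = c := by
  have hSb := (alive_iff hΦ hε hW).1 (live_left hΦ hε hW h.live)
  have hSc := (alive_iff hΦ hε hW).1 (live_left hΦ hε hW h')
  rcases lt_trichotomy (sig Φ ε (node S b)) (sig Φ ε (node S c)) with h1 | h1 | h1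
  · exact absurd (live_right hΦ hε hW h.live) (hSc.2 b _ h1 (hit_sig hΦ hε h.ok))
  · by_contra hne
    refine h.nohit c _ h.sig_le (Or.inl ⟨le_rfl, Or.inl ⟨?_, fun h => hne h.1.symm⟩⟩) ?_
    · rw [h1]; exact hit_sig hΦ hε h'.ok
    · rw [h1]; exact live_right hΦ hε hW h'
  · exact absurd (live_right hΦ hε hW h') (hSb.2 c _ h1 (hit_sig hΦ hε h'.ok))

theorem lives_comparable (hΦ : IsPotential Φ) (hε : 0 < ε) (hW : W.Finite) {T T' : CTree}
    {t t' : ℝ} (h : lives Φ ε L W T t) (h' : lives Φ ε L W T' t') (hr : T.root = T'.root) :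
    Spine T T' ∨ Spine T' T := by
  cases T with
  | leaf z =>
    change z = T'.root at hr
    left
    rw [hr]
    exact Spine.leaf T'
  | node a b =>
    cases T' with
    | leaf z =>
      change (node a b).root = z at hr
      right
      rw [← hr]
      exact Spine.leaf _
    | node a' b' =>
      have ha := live_left hΦ hε hW h.live
      have ha' := live_left hΦ hε hW h'.live
      rcases alive_comparable hΦ hε hW ha ha' hr with h1 | h1
      · by_cases hne : a = a'
        · subst hne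
          left
          rw [lives_node_unique hΦ hε hW h h'.live]
          exact Spine.refl _
        · obtain ⟨c, s, h2, h3, -⟩ := alive_spine hΦ hε hW ha' h1 hne
          have := lives_node_unique hΦ hε hW h ((alive_iff_live hΦ hε hW).1 h3).1
          subst this
          exact Or.inl (Spine.left b' h2)
      · by_cases hne : a' = a
        · subst hne
          left
          rw [lives_node_unique hΦ hε hW h h'.live]
          exact Spine.refl _
        · obtain ⟨c, s, h2, h3, -⟩ := alive_spine hΦ hε hW ha h1 hne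
          have := lives_node_unique hΦ hε hW h' ((alive_iff_live hΦ hε hW).1 h3).1
          subst this
          exact Or.inr (Spine.left b h2)

/-- **The current tree of a living particle is unique.** -/
theorem lives_unique (hΦ : IsPotential Φ) (hε : 0 < ε) (hW : W.Finite) {T T' : CTree} {t : ℝ}
    (h : lives Φ ε L W T t) (h' : lives Φ ε L W T' t) (hr : T.root = T'.root) : T = T' := by
  have key : ∀ S U : CTree, lives Φ ε L W S t → lives Φ ε L W U t → Spine S U → S = U := by
    intro S U hS hU hSU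
    by_contra hne
    obtain ⟨b, s, h1, h2, h3⟩ := live_spine hΦ hε hW hU.live hSU hne
    exact hS.nohit b _ (h2.sig_le.trans h3) (hit_sig hΦ hε h2.ok) (live_right hΦ hε hW h2)
  rcases lives_comparable hΦ hε hW h h' hr with h1 | h1
  · exact key T T' h h' h1
  · exact (key T' T h' h h1).symm

/-! ### Earlier histories -/

/-- The history at time `s` of the root particle of `T`. -/
def cur (Φ : E3 → ℝ) (ε : ℝ) : CTree → ℝ → CTree
  | leaf σ, _ => leaf σ
  | node a b, s => if sig Φ ε (node a b) ≤ s then node a b else cur Φ ε a s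

theorem cur_root (T : CTree) (s : ℝ) : (cur Φ ε T s).root = T.root := by
  induction T with
  | leaf z => rfl
  | node a b iha _ =>
    unfold cur
    split_ifs with h
    · rfl
    · exact iha

theorem cur_spine (T : CTree) (s : ℝ) : Spine (cur Φ ε T s) T := by
  induction T with
  | leaf z => exact Spine.refl _
  | node a b iha _ =>
    unfold cur
    split_ifs with h
    · exact Spine.refl _
    · exact Spine.left b iha

theorem cur_of_sig_le {T : CTree} {s : ℝ} (h : sig Φ ε T ≤ s) : cur Φ ε T s = T := by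
  cases T with
  | leaf z => rfl
  | node a b =>
    unfold cur
    rw [if_pos h]

theorem cur_of_lt_sig {a b : CTree} {s : ℝ} (h : s < sig Φ ε (node a b)) :
    cur Φ ε (node a b) s = cur Φ ε a s := by
  conv_lhs => unfold cur
  rw [if_neg (not_le.2 h)]

theorem sig_cur_le {T : CTree} {s : ℝ} (h : T.root.1 ≤ s) : sig Φ ε (cur Φ ε T s) ≤ s := by
  induction T with
  | leaf z => exact h
  | node a b iha _ =>
    unfold cur
    split_ifs with h1
    · exact h1
    · exact iha h

/-- Earlier histories of a living particle. -/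
theorem live_cur (hΦ : IsPotential Φ) (hε : 0 < ε) (hW : W.Finite) {T : CTree} {s t : ℝ}
    (h : live Φ ε L W T t) (hst : s < t) (hs : T.root.1 ≤ s) :
    lives Φ ε L W (cur Φ ε T s) s := by
  induction T generalizing t with
  | leaf z => exact h.lives_of_lt hst hs
  | node a b iha _ =>
    unfold cur
    split_ifs with h1
    · exact h.lives_of_lt hst h1
    · exact iha ((alive_iff_live hΦ hε hW).1 (live_left hΦ hε hW h)).1 (not_le.1 h1) hs

theorem lives_cur (hΦ : IsPotential Φ) (hε : 0 < ε) (hW : W.Finite) {T : CTree} {s t : ℝ}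
    (h : lives Φ ε L W T t) (hst : s ≤ t) (hs : T.root.1 ≤ s) :
    lives Φ ε L W (cur Φ ε T s) s := by
  rcases hst.eq_or_lt with h1 | h1
  · subst h1
    rw [cur_of_sig_le h.sig_le]
    exact h
  · exact live_cur hΦ hε hW h.live h1 hs

/-- The birth of the root is before the collision. -/
theorem root_birth_le_sig (hΦ : IsPotential Φ) (hε : 0 < ε) {T : CTree} (h : ok Φ ε T) :
    T.root.1 ≤ sig Φ ε T := by
  induction T with
  | leaf z => exact le_rfl
  | node a b iha _ =>
    exact ((iha h.1).trans (sig_le_ext hΦ hε h.1)).trans h.2.2.2.2.2.1.le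

/-! ### The status of a particle -/

open Classical in
/-- The current tree of the particle `a` (`none`: not born, dead, or not in the world). -/
def stat (Φ : E3 → ℝ) (ε : ℝ) (L : ℕ) (W : Set Src) (a : Src) (t : ℝ) : Option CTree :=
  if h : ∃ T : CTree, T.root = a ∧ lives Φ ε L W T t then some h.choose else none

theorem stat_eq_some_iff (hΦ : IsPotential Φ) (hε : 0 < ε) (hW : W.Finite) {a : Src} {t : ℝ}
    {T : CTree} : stat Φ ε L W a t = some T ↔ T.root = a ∧ lives Φ ε L W T t := by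
  classical
  unfold stat
  split_ifs with h
  · rw [Option.some_inj]
    constructor
    · rintro rfl
      exact h.choose_spec
    · rintro ⟨h1, h2⟩
      exact lives_unique hΦ hε hW h.choose_spec.2 h2 (h.choose_spec.1.trans h1.symm)
  · refine ⟨fun h' => absurd h' (by simp), fun h' => absurd ⟨T, h'⟩ h⟩

theorem stat_eq_none_iff {a : Src} {t : ℝ} :
    stat Φ ε L W a t = none ↔ ∀ T : CTree, T.root = a → ¬lives Φ ε L W T t := by
  classical
  unfold stat
  split_ifs with h
  · refine ⟨fun h' => absurd h' (by simp), fun h' => ?_⟩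
    obtain ⟨T, h1, h2⟩ := h
    exact absurd h2 (h' T h1)
  · exact ⟨fun _ T h1 h2 => h ⟨T, h1, h2⟩, fun _ => rfl⟩

/-- The statuses at all earlier times are determined. -/
theorem stat_cur (hΦ : IsPotential Φ) (hε : 0 < ε) (hW : W.Finite) {a : Src} {s t : ℝ}
    {T : CTree} (h : stat Φ ε L W a t = some T) (hst : s ≤ t) (hs : a.1 ≤ s) :
    stat Φ ε L W a s = some (cur Φ ε T s) := by
  rw [stat_eq_some_iff hΦ hε hW] at h ⊢
  refine ⟨(cur_root T s).trans h.1, lives_cur hΦ hε hW h.2 hst ?_⟩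
  rw [h.1]
  exact hs

/-- The dead stay dead. -/
theorem stat_none_mono (hΦ : IsPotential Φ) (hε : 0 < ε) (hW : W.Finite) {a : Src} {s t : ℝ}
    (h : stat Φ ε L W a s = none) (hst : s ≤ t) (hs : a.1 ≤ s) : stat Φ ε L W a t = none := by
  by_contra hcon
  obtain ⟨T, hT⟩ := Option.ne_none_iff_exists'.1 hcon
  have := stat_cur hΦ hε hW hT hst hs
  rw [h] at this
  exact absurd this (by simp)

/-- The state of a tree as a path from the birth on. -/
def path (Φ : E3 → ℝ) (ε : ℝ) (T : CTree) (s : ℝ) : Ph := st Φ ε (cur Φ ε T s) s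

/-- The M-state of the particle `a` (its source line if it is dead or not born). -/
def mpos (Φ : E3 → ℝ) (ε : ℝ) (L : ℕ) (W : Set Src) (a : Src) (t : ℝ) : Ph :=
  match stat Φ ε L W a t with
  | none => free t a.2.1
  | some T => st Φ ε T t

theorem mpos_eq {a : Src} {t : ℝ} {T : CTree} (h : stat Φ ε L W a t = some T) :
    mpos Φ ε L W a t = st Φ ε T t := by
  unfold mpos
  rw [h]

/-- The two trees of a colliding pair. -/
def partner (Φ : E3 → ℝ) (ε : ℝ) (T T' : CTree) (t : ℝ) : Prop :=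
  ∃ x y, T = node x y ∧ T' = node y x ∧ t < ext Φ ε T

/-- `a` is M-dead at time `t`, or there is an M-contact at time `t` with a living particle which is
not its partner. -/
def bad (Φ : E3 → ℝ) (ε : ℝ) (L : ℕ) (W : Set Src) (a : Src) (t : ℝ) : Prop :=
  a ∈ W ∧ a.1 ≤ t ∧ (stat Φ ε L W a t = none ∨
    ∃ b T T', b ∈ W ∧ b ≠ a ∧ stat Φ ε L W a t = some T ∧ stat Φ ε L W b t = some T' ∧
      Ctc ε (st Φ ε T t) (st Φ ε T' t) ∧ ¬partner Φ ε T T' t)

theorem partner.symm (hΦ : IsPotential Φ) {T T' : CTree} {t : ℝ} (h : partner Φ ε T T' t) :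
    partner Φ ε T' T t := by
  obtain ⟨x, y, rfl, rfl, h1⟩ := h
  exact ⟨y, x, rfl, rfl, by rw [ext_swap hΦ x y]; exact h1⟩

/-- The partner of a colliding particle. -/
theorem stat_partner (hΦ : IsPotential Φ) (hε : 0 < ε) (hW : W.Finite) {a : Src} {t : ℝ}
    {x y : CTree} (h : stat Φ ε L W a t = some (node x y)) (ht : t < ext Φ ε (node x y)) :
    stat Φ ε L W y.root t = some (node y x) := by
  rw [stat_eq_some_iff hΦ hε hW] at h ⊢
  exact ⟨rfl, lives_swap hΦ h.2 ht⟩

/-- The history of a living particle stays the same until the next hit: if `T` is the current tree at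
`t` then it still is a little later. -/
theorem stat_right (hΦ : IsPotential Φ) (hε : 0 < ε) (hW : W.Finite) {a : Src} {t : ℝ}
    {T : CTree} (h : stat Φ ε L W a t = some T) :
    ∃ s, t < s ∧ ∀ r ∈ Ico t s, stat Φ ε L W a r = some T := by
  rw [stat_eq_some_iff hΦ hε hW] at h
  obtain ⟨s, hs, h1, h2⟩ := (lives_iff_live hΦ hε hW).1 h.2
  refine ⟨s, hs, fun r hr => ?_⟩
  rw [stat_eq_some_iff hΦ hε hW]
  exact ⟨h.1, h1.lives_of_lt hr.2 (h2.trans hr.1)⟩

/-- If the status of a particle of tree `T` changes after `t` then `T` is hit: at the last time at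
which `T` is live, by an alive tree. -/
theorem exists_last (hΦ : IsPotential Φ) (hε : 0 < ε) (hW : W.Finite) {T : CTree} {t t' : ℝ}
    (h : lives Φ ε L W T t) (htt : t ≤ t') (h' : ¬lives Φ ε L W T t') :
    ∃ r, t < r ∧ r ≤ t' ∧ live Φ ε L W T r ∧ ∃ T', hit Φ ε T T' r ∧ alive Φ ε L W T' r := by
  -- the first among the first hit times of alive trees
  set B : Set CTree := {T' | T'.leaves ⊆ W ∧ T'.depth ≤ L ∧ (∃ s, s ≤ t' ∧ hit Φ ε T T' s) ∧
    alive Φ ε L W T' (fh Φ ε T T')} with hB
  have hBf : B.Finite := (finite_depth hW L).subset fun T' h => ⟨h.1, h.2.1⟩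
  have hBne : B.Nonempty := by
    by_contra hcon
    apply h'
    refine ⟨h.sub, h.ok, h.depth, h.sig_le.trans htt, fun T' s hs hh ha => hcon ⟨T', ?_⟩⟩
    exact ⟨(alive_pre ha).sub, (alive_pre ha).depth, ⟨s, hs, hh⟩,
      alive_anti ha (fh_le hΦ hε h.ok hh) (hit_ext_le (fh_hit hΦ hε h.ok hh))⟩
  obtain ⟨T', hT', hmin⟩ := hBf.exists_minimalFor (fun T' => fh Φ ε T T') _ hBne
  obtain ⟨h1, h2, ⟨s, hs, hh⟩, h4⟩ := hT'
  have h5 := fh_hit hΦ hε h.ok hh
  have h6 := fh_le hΦ hε h.ok hh
  have h7 : t < fh Φ ε T T' := by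
    by_contra hcon
    exact h.nohit T' _ (not_lt.1 hcon) h5 h4
  refine ⟨fh Φ ε T T', h7, h6.trans hs, ⟨h.sub, h.ok, h.depth, h.sig_le.trans h7.le, ?_⟩,
    T', h5, h4⟩
  intro T'' s' hs' hh' ha'
  have h8 := fh_le hΦ hε h.ok hh'
  have h9 := fh_hit hΦ hε h.ok hh'
  have h10 : T'' ∈ B := ⟨(alive_pre ha').sub, (alive_pre ha').depth,
    ⟨s', hs'.le.trans (h6.trans hs), hh'⟩, alive_anti ha' h8 (hit_ext_le h9)⟩
  have h11 := hmin h10
  rcases le_total (fh Φ ε T T') (fh Φ ε T T'') with h12 | h12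
  · exact absurd (h8.trans_lt hs') (not_lt.2 h12)
  · exact absurd (h8.trans_lt hs') (not_lt.2 (h11 h12))

end Vale.Agent.P119.M
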