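import Vale.Agent.P119.M.Live
import Vale.Agent.P119.GC.GNZ

/-!
# P119: the M-world, trees as (shape, data of the leaves) (`helper472`)

* `Shape`, `Shape.card`, `Shape.depth`, `shapes L` (the finite set of shapes of depth `≤ L`);
* `Shape.mk τ z : CTree`, `leaves_mk`, `mk_injective`, `injective_of_ok`, `exists_mk`;
* `Shape.ord τ z` for ordinary particles `z : Fin τ.card → Ph`;
* `tsum_trees`: sums over the trees of an ordinary world are sums over shapes and `GC.tup`;
* `sum_stat`: sums over the particles of a world of a function of the status.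
-/

open MeasureTheory Filter Topology Set
open scoped ENNReal NNReal

noncomputable section

namespace Vale.Agent.P119.M

open KU CTree

/-- Shapes of trees. -/
inductive Shape : Type
  | leaf : Shape
  | node (a b : Shape) : Shape

namespace Shape

/-- The number of leaves. -/
def card : Shape → ℕ
  | leaf => 1
  | node a b => a.card + b.card

/-- The depth. -/
def depth : Shape → ℕ
  | leaf => 0
  | node a b => max a.depth b.depth + 1

/-- The tree with given shape and leaves. -/
def mk : (τ : Shape) → (Fin τ.card → Src) → CTree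
  | leaf, z => CTree.leaf (z ⟨0, one_pos⟩)
  | node a b, z => CTree.node (mk a fun i => z (Fin.castAdd b.card i))
      (mk b fun i => z (Fin.natAdd a.card i))

theorem leaves_mk (τ : Shape) (z : Fin τ.card → Src) : (mk τ z).leaves = range z := by
  induction τ with
  | leaf =>
    ext x
    change x ∈ ({z ⟨0, one_pos⟩} : Set Src) ↔ _
    rw [mem_singleton_iff, mem_range]
    constructor
    · rintro rfl; exact ⟨_, rfl⟩
    · rintro ⟨i, rfl⟩
      exact congrArg z (Subsingleton.elim (α := Fin 1) _ _)
  | node a b iha ihb =>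
    change (mk a _).leaves ∪ (mk b _).leaves = _
    rw [iha, ihb]
    ext x
    constructor
    · rintro (⟨i, rfl⟩ | ⟨i, rfl⟩)
      · exact ⟨_, rfl⟩
      · exact ⟨_, rfl⟩
    · rintro ⟨i, rfl⟩
      induction i using Fin.addCases with
      | left i => exact Or.inl ⟨i, rfl⟩
      | right i => exact Or.inr ⟨i, rfl⟩

theorem mk_injective (τ : Shape) : Function.Injective (mk τ) := by
  induction τ with
  | leaf =>
    intro z z' h
    have h1 : z ⟨0, one_pos⟩ = z' ⟨0, one_pos⟩ := CTree.leaf.inj h
    funext i
    have : i = ⟨0, one_pos⟩ := Subsingleton.elim (α := Fin 1) _ _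
    rw [this, h1]
  | node a b iha ihb =>
    intro z z' h
    obtain ⟨h1, h2⟩ := CTree.node.inj h
    have h3 := iha h1
    have h4 := ihb h2
    funext i
    induction i using Fin.addCases with
    | left i => exact congrFun h3 i
    | right i => exact congrFun h4 i

theorem card_mk (τ : Shape) (z : Fin τ.card → Src) : (mk τ z).card = τ.card := by
  induction τ with
  | leaf => rfl
  | node a b iha ihb =>
    change (mk a _).card + (mk b _).card = _
    rw [iha, ihb]
    rfl

theorem depth_mk (τ : Shape) (z : Fin τ.card → Src) : τ.depth ≤ (mk τ z).depth := by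
  induction τ with
  | leaf => exact Nat.zero_le _
  | node a b iha ihb =>
    change max a.depth b.depth + 1 ≤ max (mk a _).depth (mk b _).depth + 1
    exact Nat.succ_le_succ (max_le_max (iha _) (ihb _))

theorem depth_mk_eq (τ : Shape) (z : Fin τ.card → Src) (hz : ∀ i, (z i).2.2 = 0) :
    (mk τ z).depth = τ.depth := by
  induction τ with
  | leaf => exact hz _
  | node a b iha ihb =>
    have h1 := iha (fun i => z (Fin.castAdd b.card i)) fun i => hz _
    have h2 := ihb (fun i => z (Fin.natAdd a.card i)) fun i => hz _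
    exact congrArg (· + 1) (congrArg₂ max h1 h2)

theorem injective_of_ok {Φ : E3 → ℝ} {ε : ℝ} (τ : Shape) (z : Fin τ.card → Src)
    (h : ok Φ ε (mk τ z)) : Function.Injective z := by
  induction τ with
  | leaf => intro i j _; exact Subsingleton.elim (α := Fin 1) _ _
  | node a b iha ihb =>
    have ha := iha _ h.1
    have hb := ihb _ h.2.1
    have hd := h.2.2.1
    rw [leaves_mk, leaves_mk, disjoint_left] at hd
    intro i j hij
    induction i using Fin.addCases with
    | left i =>
      induction j using Fin.addCases with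
      | left j => exact congrArg _ (ha hij)
      | right j => exact absurd ⟨j, hij.symm⟩ (hd ⟨i, rfl⟩)
    | right i =>
      induction j using Fin.addCases with
      | left j => exact absurd ⟨i, hij⟩ (hd ⟨j, rfl⟩)
      | right j => exact congrArg _ (hb hij)

theorem exists_mk (T : CTree) : ∃ (τ : Shape) (z : Fin τ.card → Src), mk τ z = T := by
  induction T with
  | leaf σ => exact ⟨leaf, fun _ => σ, rfl⟩
  | node a b iha ihb =>
    obtain ⟨τa, za, rfl⟩ := iha
    obtain ⟨τb, zb, rfl⟩ := ihb
    refine ⟨node τa τb, Fin.append za zb, ?_⟩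
    change CTree.node (mk τa fun i => Fin.append za zb (Fin.castAdd _ i))
      (mk τb fun i => Fin.append za zb (Fin.natAdd _ i)) = _
    simp only [Fin.append_left, Fin.append_right]

theorem mk_shape_unique {τ τ' : Shape} {z : Fin τ.card → Src} {z' : Fin τ'.card → Src}
    (h : mk τ z = mk τ' z') : τ = τ' := by
  induction τ generalizing τ' with
  | leaf =>
    cases τ' with
    | leaf => rfl
    | node a b => exact absurd h (by rintro ⟨⟩)
  | node a b iha ihb =>
    cases τ' with
    | leaf => exact absurd h (by rintro ⟨⟩)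
    | node a' b' =>
      obtain ⟨h1, h2⟩ := CTree.node.inj h
      rw [iha h1, ihb h2]

/-- The shapes of bounded depth are finitely many. -/
theorem finite_depth (L : ℕ) : {τ : Shape | τ.depth ≤ L}.Finite := by
  induction L with
  | zero =>
    refine (finite_singleton leaf).subset ?_
    rintro (_ | ⟨a, b⟩) h
    · exact rfl
    · exact absurd h (Nat.not_succ_le_zero _)
  | succ L ih =>
    refine ((finite_singleton leaf).union
      ((ih.prod ih).image (fun p : Shape × Shape => node p.1 p.2))).subset ?_
    rintro (_ | ⟨a, b⟩) h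
    · exact Or.inl rfl
    · change max a.depth b.depth + 1 ≤ L + 1 at h
      rw [Nat.add_le_add_iff_right, max_le_iff] at h
      exact Or.inr ⟨(a, b), ⟨h.1, h.2⟩, rfl⟩

end Shape

/-- The shapes of depth `≤ L`. -/
def shapes (L : ℕ) : Finset Shape := (Shape.finite_depth L).toFinset

theorem mem_shapes {L : ℕ} {τ : Shape} : τ ∈ shapes L ↔ τ.depth ≤ L :=
  (Shape.finite_depth L).mem_toFinset

/-- The tree of the shape `τ` with ordinary particles. -/
def Shape.ord (τ : Shape) (z : Fin τ.card → Ph) : CTree := τ.mk fun i => src (z i)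

theorem src_injective : Function.Injective src := fun z z' h => by
  have := congrArg (fun s : Src => s.2.1) h
  exact this

theorem Shape.leaves_ord (τ : Shape) (z : Fin τ.card → Ph) : (τ.ord z).leaves = src '' range z := by
  unfold Shape.ord
  rw [Shape.leaves_mk]
  exact range_comp src z

theorem Shape.depth_ord (τ : Shape) (z : Fin τ.card → Ph) : (τ.ord z).depth = τ.depth :=
  τ.depth_mk_eq _ fun _ => rfl

theorem Shape.ord_injective (τ : Shape) : Function.Injective τ.ord := fun z z' h => by
  have h1 := τ.mk_injective h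
  funext i
  exact src_injective (congrFun h1 i)

theorem Shape.leaves_ord_subset {τ : Shape} {z : Fin τ.card → Ph} {w : Set Ph} :
    (τ.ord z).leaves ⊆ world w ↔ ∀ i, z i ∈ w := by
  rw [Shape.leaves_ord]
  unfold world
  rw [image_subset_image_iff src_injective, range_subset_iff]

theorem Shape.exists_ord {T : CTree} {w : Set Ph} (h : T.leaves ⊆ world w) :
    ∃ (τ : Shape) (z : Fin τ.card → Ph), τ.ord z = T ∧ ∀ i, z i ∈ w := by
  obtain ⟨τ, z, rfl⟩ := Shape.exists_mk T
  rw [Shape.leaves_mk, range_subset_iff] at h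
  choose z' hz' hz'' using h
  refine ⟨τ, z', ?_, hz'⟩
  unfold Shape.ord
  exact congrArg _ (funext hz'')

variable {Φ : E3 → ℝ} {ε : ℝ} {L : ℕ}

open Classical in
/-- **Sums over the trees of an ordinary world.** -/
theorem tsum_trees {w : Finset Ph} {F : CTree → ℝ≥0∞}
    (hF : ∀ T, F T ≠ 0 → T.leaves ⊆ world (w : Set Ph) ∧ ok Φ ε T ∧ T.depth ≤ L) :
    ∑' T, F T = ∑ τ ∈ shapes L, ∑ z ∈ GC.tup τ.card w, F (τ.ord z) := by
  -- the family of all `(τ, z)`
  set S : Finset (Σ τ : Shape, (Fin τ.card → Ph)) :=
    (shapes L).sigma fun τ => GC.tup τ.card w with hS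
  rw [← Finset.sum_sigma (shapes L) (fun τ => GC.tup τ.card w)
    (fun p : Σ τ : Shape, (Fin τ.card → Ph) => F (p.1.ord p.2)), ← hS]
  have hinj : ∀ p ∈ S, ∀ q ∈ S, p.1.ord p.2 = q.1.ord q.2 → p = q := by
    rintro ⟨τ, z⟩ - ⟨τ', z'⟩ - h
    have h1 : τ = τ' := Shape.mk_shape_unique h
    subst h1
    have h2 : z = z' := τ.ord_injective h
    subst h2
    rfl
  have h1 : ∑ p ∈ S, F (p.1.ord p.2) = ∑ T ∈ S.image fun p => p.1.ord p.2, F T := by
    rw [Finset.sum_image hinj]
  rw [h1]
  refine tsum_eq_sum fun T hT => ?_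
  by_contra hcon
  obtain ⟨h2, h3, h4⟩ := hF T hcon
  obtain ⟨τ, z, rfl, hz⟩ := Shape.exists_ord h2
  refine hT (Finset.mem_image.2 ⟨⟨τ, z⟩, ?_, rfl⟩)
  rw [hS, Finset.mem_sigma, mem_shapes, GC.mem_tup]
  rw [Shape.depth_ord] at h4
  refine ⟨h4, hz, ?_⟩
  have h5 := τ.injective_of_ok _ h3
  exact fun i j hij => h5 (congrArg src hij)

open Classical in
/-- Sums over the living particles of a finite world are sums over the living trees. -/
theorem sum_stat (hΦ : IsPotential Φ) (hε : 0 < ε) (W : Finset Src) (t : ℝ)
    (G : CTree → ℝ≥0∞) :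
    (∑ a ∈ W, match stat Φ ε L (W : Set Src) a t with
      | none => 0
      | some T => G T) = ∑' T, if lives Φ ε L (W : Set Src) T t then G T else 0 := by
  have hW : (W : Set Src).Finite := W.finite_toSet
  set B : Finset CTree := (CTree.finite_depth hW L).toFinset with hB
  have h1 : ∑' T, (if lives Φ ε L (W : Set Src) T t then G T else 0) =
      ∑ T ∈ B, if lives Φ ε L (W : Set Src) T t then G T else 0 := by
    refine tsum_eq_sum fun T hT => if_neg fun h => hT ?_
    rw [hB, Set.Finite.mem_toFinset]
    exact ⟨h.sub, h.depth⟩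
  rw [h1]
  have h2 : ∀ T ∈ B, (if lives Φ ε L (W : Set Src) T t then G T else 0) =
      ∑ a ∈ W, if T.root = a ∧ lives Φ ε L (W : Set Src) T t then G T else 0 := by
    intro T _
    by_cases h : lives Φ ε L (W : Set Src) T t
    · rw [if_pos h, Finset.sum_eq_single T.root]
      · rw [if_pos ⟨rfl, h⟩]
      · intro b _ hb
        exact if_neg fun hcon => hb hcon.1.symm
      · intro hcon
        exact absurd (h.sub T.root_mem_leaves) hcon
    · rw [if_neg h]
      exact (Finset.sum_eq_zero fun a _ => if_neg fun hcon => h hcon.2).symm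
  rw [Finset.sum_congr rfl h2, Finset.sum_comm]
  refine Finset.sum_congr rfl fun a _ => ?_
  rcases hs : stat Φ ε L (W : Set Src) a t with _ | T
  · rw [stat_eq_none_iff] at hs
    exact (Finset.sum_eq_zero fun T _ => if_neg fun hcon => hs T hcon.1 hcon.2).symm
  · rw [stat_eq_some_iff hΦ hε hW] at hs
    change G T = _
    rw [Finset.sum_eq_single T]
    · rw [if_pos hs]
    · intro T' _ hT'
      exact if_neg fun hcon => hT' (lives_unique hΦ hε hW hcon.2 hs.2 (hcon.1.trans hs.1.symm))
    · intro hcon
      rw [hB, Set.Finite.mem_toFinset] at hcon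
      exact absurd ⟨hs.2.sub, hs.2.depth⟩ hcon

end Vale.Agent.P119.M
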