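import Vale.Agent.P119.Bdl.B1

/-!
# P119: contact of two phase points (`helper472`, convention of `helper939`)

`Ctc ε p q`: the positions are within `ε`, and the points are not at distance exactly `ε` and
strictly leaving each other.  Along two `C¹` paths the set of times of contact is closed under
decreasing limits.
-/

open Filter Topology Set

namespace Vale.Agent.P119

/-- Contact: within the distance `ε`, and not leaving at distance `ε`. -/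
def Ctc (ε : ℝ) (p q : Ph) : Prop :=
  ‖p.1 - q.1‖ ≤ ε ∧ ¬(‖p.1 - q.1‖ = ε ∧ 0 < (inner ℝ (p.1 - q.1) (p.2 - q.2) : ℝ))

theorem Ctc.le {ε : ℝ} {p q : Ph} (h : Ctc ε p q) : ‖p.1 - q.1‖ ≤ ε := h.1

theorem Ctc.symm {ε : ℝ} {p q : Ph} (h : Ctc ε p q) : Ctc ε q p := by
  unfold Ctc at *
  rw [norm_sub_rev q.1 p.1]
  refine ⟨h.1, fun hcon => h.2 ⟨hcon.1, ?_⟩⟩
  rw [← neg_sub q.1 p.1, ← neg_sub q.2 p.2, inner_neg_neg]
  exact hcon.2

theorem ctc_comm {ε : ℝ} {p q : Ph} : Ctc ε p q ↔ Ctc ε q p := ⟨Ctc.symm, Ctc.symm⟩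

theorem ctc_of_lt {ε : ℝ} {p q : Ph} (h : ‖p.1 - q.1‖ < ε) : Ctc ε p q :=
  ⟨h.le, fun hcon => h.ne hcon.1⟩

theorem ctc_of_inner_nonpos {ε : ℝ} {p q : Ph} (h : ‖p.1 - q.1‖ ≤ ε)
    (h' : (inner ℝ (p.1 - q.1) (p.2 - q.2) : ℝ) ≤ 0) : Ctc ε p q :=
  ⟨h, fun hcon => absurd hcon.2 (not_lt.2 h')⟩

theorem not_ctc_of_lt {ε : ℝ} {p q : Ph} (h : ε < ‖p.1 - q.1‖) : ¬Ctc ε p q :=
  fun h' => absurd h (not_lt.2 h'.1)

/-- **The times of contact are closed under decreasing limits.** -/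
theorem ctc_of_frequently {ε : ℝ} (hε : 0 ≤ ε) {X Y : ℝ → Ph} {s : ℝ}
    (hX : HasDerivWithinAt (fun r => (X r).1) (X s).2 (Ioi s) s)
    (hY : HasDerivWithinAt (fun r => (Y r).1) (Y s).2 (Ioi s) s)
    (h : ∃ᶠ r in 𝓝[>] s, Ctc ε (X r) (Y r)) : Ctc ε (X s) (Y s) := by
  have hd : HasDerivWithinAt (fun r => (X r).1 - (Y r).1) ((X s).2 - (Y s).2) (Ioi s) s := hX.sub hY
  have h1 : HasDerivWithinAt (fun r => (inner ℝ ((X r).1 - (Y r).1) ((X r).1 - (Y r).1) : ℝ))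
      (inner ℝ ((X s).1 - (Y s).1) ((X s).2 - (Y s).2) +
        inner ℝ ((X s).2 - (Y s).2) ((X s).1 - (Y s).1)) (Ioi s) s := hd.inner ℝ hd
  set g : ℝ → ℝ := fun r => (inner ℝ ((X r).1 - (Y r).1) ((X r).1 - (Y r).1) : ℝ) with hg
  have hgn : ∀ r, g r = ‖(X r).1 - (Y r).1‖ ^ 2 := fun r => by
    rw [hg]; exact real_inner_self_eq_norm_sq _
  have h2 : ∃ᶠ r in 𝓝[>] s, g r ≤ ε ^ 2 := h.mono fun r hr => by
    rw [hgn]; exact pow_le_pow_left₀ (norm_nonneg _) hr.1 2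
  have h3 : g s ≤ ε ^ 2 := by
    by_contra hcon
    rw [not_le] at hcon
    have h4 : Tendsto g (𝓝[>] s) (𝓝 (g s)) := h1.continuousWithinAt
    exact h2 ((h4.eventually (lt_mem_nhds hcon)).mono fun r hr => not_le.2 hr)
  have h5 : ‖(X s).1 - (Y s).1‖ ≤ ε := by
    rw [hgn] at h3
    exact le_of_sq_le_sq h3 hε
  refine ⟨h5, fun hcon => ?_⟩
  obtain ⟨h6, h7⟩ := hcon
  have h8 : g s = ε ^ 2 := by rw [hgn, h6]
  have h9 : 0 < inner ℝ ((X s).1 - (Y s).1) ((X s).2 - (Y s).2) +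
      (inner ℝ ((X s).2 - (Y s).2) ((X s).1 - (Y s).1) : ℝ) := by
    rw [real_inner_comm ((X s).1 - (Y s).1) ((X s).2 - (Y s).2)]
    linarith
  have h10 := (hasDerivWithinAt_iff_tendsto_slope' (by simp)).1 h1
  have h11 := h10.eventually (lt_mem_nhds h9)
  refine h2 (h11.mp ?_)
  filter_upwards [self_mem_nhdsWithin] with r hr hsl
  rw [slope_def_field] at hsl
  have h12 : 0 < r - s := sub_pos.2 hr
  have h13 : 0 < g r - g s := by
    have := (div_pos_iff_of_pos_right h12).1 hsl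
    exact this
  rw [h8] at h13
  linarith

/-- First times of right-closed sets are attained. -/
theorem sInf_mem_of_frequently {S : Set ℝ} (hne : S.Nonempty) (hb : BddBelow S)
    (h : ∀ s, (∃ᶠ r in 𝓝[>] s, r ∈ S) → s ∈ S) : sInf S ∈ S := by
  by_contra hcon
  refine hcon (h _ ?_)
  rw [frequently_iff]
  intro U hU
  obtain ⟨u, hu, hu'⟩ := mem_nhdsGT_iff_exists_Ioo_subset.1 hU
  obtain ⟨r, hr, hr'⟩ := exists_lt_of_csInf_lt hne hu
  have h1 : sInf S ≤ r := csInf_le hb hr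
  have h2 : sInf S ≠ r := fun h' => hcon (h' ▸ hr)
  exact ⟨r, hu' ⟨lt_of_le_of_ne h1 h2, hr'⟩, hr⟩

end Vale.Agent.P119
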