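import Vale.Agent.P119.KU.Scat11
import Vale.Agent.P119.M.Near

/-!
# P119: the M-world, trees (`helper472`)

A tree is a collision history.  The leaves are sources `σ = (b, z, d)`: a particle born at time `b`
on the line `z` (a phase point extrapolated to the time `0`), with depth `d`; an ordinary particle is
`src z = (0, z, 0)`.  In `node a b` the root particle of `a` collides with the root particle of `b`,
and the root of `node a b` is the root of `a` (the other particle is the root of `node b a`).  All
paths are computed from the tree, with two-body flows only (`pairLine`, `sc2` of `helper178`).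
-/

open MeasureTheory Filter Topology Set
open scoped ENNReal NNReal

noncomputable section

namespace Vale.Agent.P119.M

open KU

/-- Sources: birth time, line, depth. -/
abbrev Src : Type := ℝ × Ph × ℕ

/-- The source of an ordinary particle. -/
def src (z : Ph) : Src := (0, z, 0)

/-- The ordinary world. -/
def world (w : Set Ph) : Set Src := src '' w

/-- Collision histories. -/
inductive CTree : Type
  | leaf (σ : Src) : CTree
  | node (a b : CTree) : CTree

namespace CTree

/-- The sources of all the particles of a tree. -/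
def leaves : CTree → Set Src
  | leaf σ => {σ}
  | node a b => a.leaves ∪ b.leaves

/-- The depth. -/
def depth : CTree → ℕ
  | leaf σ => σ.2.2
  | node a b => max a.depth b.depth + 1

/-- The number of leaves. -/
def card : CTree → ℕ
  | leaf _ => 1
  | node a b => a.card + b.card

/-- The root particle (its source). -/
def root : CTree → Src
  | leaf σ => σ
  | node a _ => a.root

theorem root_mem_leaves (T : CTree) : T.root ∈ T.leaves := by
  induction T with
  | leaf z => exact mem_singleton z
  | node a b iha _ => exact Or.inl iha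

theorem leaves_nonempty (T : CTree) : T.leaves.Nonempty := ⟨_, T.root_mem_leaves⟩

theorem leaves_finite (T : CTree) : T.leaves.Finite := by
  induction T with
  | leaf z => exact finite_singleton z
  | node a b iha ihb => exact iha.union ihb

theorem not_disjoint_self (T : CTree) : ¬Disjoint T.leaves T.leaves := by
  rw [disjoint_self, bot_eq_empty]
  exact T.leaves_nonempty.ne_empty

theorem card_pos (T : CTree) : 0 < T.card := by
  induction T with
  | leaf z => exact one_pos
  | node a b iha _ => exact Nat.add_pos_left iha _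

/-- The trees of bounded depth with leaves in a finite set are finitely many. -/
theorem finite_depth {W : Set Src} (hW : W.Finite) (L : ℕ) :
    {T : CTree | T.leaves ⊆ W ∧ T.depth ≤ L}.Finite := by
  induction L with
  | zero =>
    refine (hW.image leaf).subset ?_
    rintro (z | ⟨a, b⟩) ⟨h1, h2⟩
    · exact ⟨z, h1 (mem_singleton z), rfl⟩
    · exact absurd h2 (Nat.not_succ_le_zero _)
  | succ L ih =>
    refine ((hW.image leaf).union ((ih.prod ih).image (fun p : CTree × CTree => node p.1 p.2))).subset
      ?_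
    rintro (z | ⟨a, b⟩) ⟨h1, h2⟩
    · exact Or.inl ⟨z, h1 (mem_singleton z), rfl⟩
    · simp only [depth, Nat.add_le_add_iff_right, max_le_iff] at h2
      refine Or.inr ⟨(a, b), ⟨⟨fun x hx => h1 (Or.inl hx), h2.1⟩,
        ⟨fun x hx => h1 (Or.inr hx), h2.2⟩⟩, rfl⟩

variable (Φ : E3 → ℝ) (ε : ℝ)

/-- The line of the root particle after the last collision. -/
def ln : CTree → Ph
  | leaf σ => σ.2.1
  | node a b => (sc2 Φ ε (ln a, ln b)).1

/-- The time at which the last collision begins (birth time for a leaf). -/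
def sig : CTree → ℝ
  | leaf σ => σ.1
  | node a b => hitT ε (ln Φ ε a, ln Φ ε b)

/-- The time at which the last collision ends (birth time for a leaf). -/
def ext : CTree → ℝ
  | leaf σ => σ.1
  | node a b => sepT Φ ε (ln Φ ε a, ln Φ ε b)

/-- The state of the root particle, from the end of its last but one collision on. -/
def st : CTree → ℝ → Ph
  | leaf σ, t => free t σ.2.1
  | node a b, t => (pairLine Φ ε (ln Φ ε a, ln Φ ε b) t).1

/-- The geometric conditions: births are at times `≥ 0`, the two histories have no common particle, the two lines meet after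
the end of the last collisions, and the pair separates again. -/
def ok : CTree → Prop
  | leaf σ => 0 ≤ σ.1
  | node a b => ok a ∧ ok b ∧ Disjoint a.leaves b.leaves ∧ Meets ε (ln Φ ε a, ln Φ ε b) ∧
      Exits Φ (rel ε (ln Φ ε a, ln Φ ε b)) ∧ ext Φ ε a < hitT ε (ln Φ ε a, ln Φ ε b) ∧
      ext Φ ε b < hitT ε (ln Φ ε a, ln Φ ε b)

/-- `hit T T' s`: at time `s` the particle which moves along the root line of `T'` is in contact
(`Ctc`) with a relevant line of `T` (a line of the backward cluster, and both partners during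
the collisions).  It is only required that `T'` has no particle in common with the history of the
line that is hit.  The contact at which the node is made is not counted. -/
def hit : CTree → CTree → ℝ → Prop
  | leaf σ, T', s => σ.1 ≤ s ∧ ext Φ ε T' ≤ s ∧ σ ∉ T'.leaves ∧
      Ctc ε (free s σ.2.1) (free s (ln Φ ε T'))
  | node a b, T', s =>
      (s ≤ sig Φ ε (node a b) ∧ ((hit a T' s ∧ ¬(T' = b ∧ s = sig Φ ε (node a b))) ∨
        (hit b T' s ∧ ¬(T' = a ∧ s = sig Φ ε (node a b))))) ∨
      (sig Φ ε (node a b) ≤ s ∧ ext Φ ε T' ≤ s ∧ Disjoint (node a b).leaves T'.leaves ∧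
        (Ctc ε (pairLine Φ ε (ln Φ ε a, ln Φ ε b) s).1 (free s (ln Φ ε T')) ∨
          (s < ext Φ ε (node a b) ∧
            Ctc ε (pairLine Φ ε (ln Φ ε a, ln Φ ε b) s).2 (free s (ln Φ ε T')))))

end CTree

open CTree

variable {Φ : E3 → ℝ} {ε : ℝ}

/-! ### Geometry -/

theorem continuous_pairLine (hΦ : IsPotential Φ) (q : Ph × Ph) :
    Continuous (fun t => pairLine Φ ε q t) := by
  have h1 : Continuous (fun t : ℝ => free t (com q)) :=
    continuous_free.comp (continuous_id.prodMk continuous_const)
  have h2 : Continuous (fun t : ℝ => traj Φ (rel ε q) (t / ε)) :=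
    (continuous_traj hΦ _).comp (continuous_id.div_const ε)
  exact continuous_mk2.comp (h1.prodMk h2)

theorem continuous_free_time (p : Ph) : Continuous (fun t => free t p) :=
  continuous_free.comp (continuous_id.prodMk continuous_const)

theorem continuous_st (hΦ : IsPotential Φ) (T : CTree) : Continuous (st Φ ε T) := by
  cases T with
  | leaf z => exact continuous_free_time z.2.1
  | node a b => exact continuous_fst.comp (continuous_pairLine hΦ _)

theorem sig_lt_ext (hΦ : IsPotential Φ) (hε : 0 < ε) {a b : CTree} (h : ok Φ ε (node a b)) :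
    sig Φ ε (node a b) < ext Φ ε (node a b) :=
  hitT_lt_sepT hΦ hε h.2.2.2.2.1 h.2.2.2.1.2

theorem ext_nonneg (hΦ : IsPotential Φ) (hε : 0 < ε) {T : CTree} (h : ok Φ ε T) :
    0 ≤ ext Φ ε T := by
  induction T with
  | leaf z => exact h
  | node a b iha _ =>
    have h1 := iha h.1
    have h2 := sig_lt_ext hΦ hε h
    have h3 := h.2.2.2.2.2.1
    change _ < sig Φ ε (node a b) at h3
    linarith

theorem sig_nonneg (hΦ : IsPotential Φ) (hε : 0 < ε) {T : CTree} (h : ok Φ ε T) :
    0 ≤ sig Φ ε T := by
  cases T with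
  | leaf z => exact h
  | node a b => exact (ext_nonneg hΦ hε h.1).trans h.2.2.2.2.2.1.le

theorem st_after (hΦ : IsPotential Φ) (hε : 0 < ε) {T : CTree} (h : ok Φ ε T) {t : ℝ}
    (ht : ext Φ ε T ≤ t) : st Φ ε T t = free t (ln Φ ε T) := by
  cases T with
  | leaf z => rfl
  | node a b =>
    change (pairLine Φ ε _ t).1 = _
    rw [pairLine_after hΦ hε h.2.2.2.2.1 h.2.2.2.1.2.le ht]
    rfl

theorem st_before (hΦ : IsPotential Φ) (hε : 0 < ε) {a b : CTree} (h : ok Φ ε (node a b)) {t : ℝ}
    (ht : t ≤ sig Φ ε (node a b)) : st Φ ε (node a b) t = free t (ln Φ ε a) := by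
  change (pairLine Φ ε _ t).1 = _
  rw [pairLine_before hΦ hε h.2.2.2.1.1 h.2.2.2.1.2.le ht]

theorem st_sig (hΦ : IsPotential Φ) (hε : 0 < ε) {a b : CTree} (h : ok Φ ε (node a b)) :
    st Φ ε (node a b) (sig Φ ε (node a b)) = st Φ ε a (sig Φ ε (node a b)) := by
  rw [st_before hΦ hε h le_rfl]
  exact (st_after hΦ hε h.1 h.2.2.2.2.2.1.le).symm

/-! ### The exchange of the two particles of the last collision -/

theorem sepT_swap (hΦ : IsPotential Φ) (q : Ph × Ph) : sepT Φ ε q.swap = sepT Φ ε q := by
  unfold sepT tout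
  rw [rel_swap, scat_act hΦ, crd_act]
  unfold half
  rw [perp_act, LinearIsometryEquiv.norm_map]
  unfold act
  rw [LinearIsometryEquiv.norm_map]

theorem ln_swap (hΦ : IsPotential Φ) (a b : CTree) :
    ln Φ ε (node b a) = (sc2 Φ ε (ln Φ ε a, ln Φ ε b)).2 := by
  have h := sc2_swap (ε := ε) hΦ (ln Φ ε a, ln Φ ε b)
  change (sc2 Φ ε (ln Φ ε b, ln Φ ε a)).1 = _
  rw [Prod.swap_prod_mk] at h
  rw [h]
  rfl

theorem sig_swap (a b : CTree) : sig Φ ε (node b a) = sig Φ ε (node a b) :=
  hitT_swap (ln Φ ε a, ln Φ ε b)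

theorem ext_swap (hΦ : IsPotential Φ) (a b : CTree) : ext Φ ε (node b a) = ext Φ ε (node a b) :=
  sepT_swap hΦ (ln Φ ε a, ln Φ ε b)

theorem st_swap (hΦ : IsPotential Φ) (a b : CTree) (t : ℝ) :
    st Φ ε (node b a) t = (pairLine Φ ε (ln Φ ε a, ln Φ ε b) t).2 := by
  have h := pairLine_swap (ε := ε) hΦ (ln Φ ε a, ln Φ ε b) t
  change (pairLine Φ ε (ln Φ ε b, ln Φ ε a) t).1 = _
  rw [Prod.swap_prod_mk] at h
  rw [h]
  rfl

theorem exits_swap (hΦ : IsPotential Φ) (q : Ph × Ph) :
    Exits Φ (rel ε q.swap) ↔ Exits Φ (rel ε q) := by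
  rw [rel_swap]
  exact exits_act hΦ _ _

theorem ok_swap (hΦ : IsPotential Φ) {a b : CTree} (h : ok Φ ε (node a b)) : ok Φ ε (node b a) := by
  obtain ⟨h1, h2, h3, h4, h5, h6, h7⟩ := h
  refine ⟨h2, h1, h3.symm, (meets_swap (ln Φ ε a, ln Φ ε b)).2 h4,
    (exits_swap hΦ (ln Φ ε a, ln Φ ε b)).2 h5, ?_, ?_⟩
  · rw [show hitT ε (ln Φ ε b, ln Φ ε a) = hitT ε (ln Φ ε a, ln Φ ε b) from
      hitT_swap (ln Φ ε a, ln Φ ε b)]
    exact h7
  · rw [show hitT ε (ln Φ ε b, ln Φ ε a) = hitT ε (ln Φ ε a, ln Φ ε b) from
      hitT_swap (ln Φ ε a, ln Φ ε b)]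
    exact h6

end Vale.Agent.P119.M
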