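import Vale.Agent.P119.M.Live

/-!
# P119: the M-world, superposition (`helper472`)

Worlds `W J`, `J ⊆ K`; a particle is in `W J` according to `i ∈ J` for one index `i` only
(`CubeW`; e.g. `W J = U ∪ ⋃ i ∈ J, X i`).  `NI W K t` (no interaction up to `t`): no line altered by
`i` is hit by a line altered by `j ≠ i`, and nothing is hit at the same time by two such lines.
Then every tree and every particle depend on one index only: `live_dep`, `lives_dep`, `label_dep`.
-/

open MeasureTheory Filter Topology Set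
open scoped ENNReal NNReal

noncomputable section

namespace Vale.Agent.P119.M

open KU CTree

variable {Φ : E3 → ℝ} {ε : ℝ} {L : ℕ}

/-! ### The recursion for `live` -/

/-- What is needed at the beginning of the last collision. -/
def base (Φ : E3 → ℝ) (ε : ℝ) (L : ℕ) (W : Set Src) : CTree → Prop
  | leaf σ => σ ∈ W ∧ ok Φ ε (leaf σ) ∧ (leaf σ).depth ≤ L
  | node a b => ok Φ ε (node a b) ∧ (node a b).depth ≤ L ∧
      alive Φ ε L W a (sig Φ ε (node a b)) ∧ alive Φ ε L W b (sig Φ ε (node a b))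

section recursion

variable {W : Set Src}

/-- There is no killing hit before the beginning of the last collision. -/
theorem base_nohit (hΦ : IsPotential Φ) (hε : 0 < ε) (hW : W.Finite) {T T' : CTree} {s : ℝ}
    (h : base Φ ε L W T) (hs : s < sig Φ ε T) (hh : hit Φ ε T T' s) : ¬alive Φ ε L W T' s := by
  cases T with
  | leaf σ => exact absurd hh.1 (not_le.2 hs)
  | node a b =>
    obtain ⟨h1, h2, h3, h4⟩ := h
    rw [alive_iff hΦ hε hW] at h3 h4
    rcases hh with ⟨-, h5 | h5⟩ | h5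
    · exact h3.2 T' s hs h5.1
    · exact h4.2 T' s hs h5.1
    · exact absurd h5.1 (not_le.2 hs)

theorem base.ok {T : CTree} (h : base Φ ε L W T) : ok Φ ε T := by
  cases T with
  | leaf σ => exact h.2.1
  | node a b => exact h.1

theorem base.depth {T : CTree} (h : base Φ ε L W T) : T.depth ≤ L := by
  cases T with
  | leaf σ => exact h.2.2
  | node a b => exact h.2.1

theorem base.sub {T : CTree} (h : base Φ ε L W T) : T.leaves ⊆ W := by
  cases T with
  | leaf σ => exact singleton_subset_iff.2 h.1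
  | node a b => exact union_subset (alive_pre h.2.2.1).sub (alive_pre h.2.2.2).sub

theorem live_iff_base (hΦ : IsPotential Φ) (hε : 0 < ε) (hW : W.Finite) {T : CTree} {t : ℝ} :
    live Φ ε L W T t ↔ base Φ ε L W T ∧ sig Φ ε T ≤ t ∧
      ∀ T' s, sig Φ ε T ≤ s → s < t → hit Φ ε T T' s → ¬alive Φ ε L W T' s := by
  constructor
  · intro h
    refine ⟨?_, h.sig_le, fun T' s _ hs => h.nohit T' s hs⟩
    cases T with
    | leaf σ => exact ⟨h.sub (mem_singleton σ), h.ok, h.depth⟩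
    | node a b => exact ⟨h.ok, h.depth, live_left hΦ hε hW h, live_right hΦ hε hW h⟩
  · rintro ⟨h1, h2, h3⟩
    refine ⟨h1.sub, h1.ok, h1.depth, h2, fun T' s hs hh => ?_⟩
    rcases lt_or_ge s (sig Φ ε T) with h4 | h4
    · exact base_nohit hΦ hε hW h1 h4 hh
    · exact h3 T' s h4 hs hh

/-- No event in `[sig T, t)`. -/
theorem live_iff_of_no_times (hΦ : IsPotential Φ) (hε : 0 < ε) (hW : W.Finite) {W' : Set Src}
    (hsub : W ⊆ W') {T : CTree} {t : ℝ} (ht : sig Φ ε T ≤ t)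
    (h : ∀ r ∈ times Φ ε L W', sig Φ ε T ≤ r → t ≤ r) :
    live Φ ε L W T t ↔ base Φ ε L W T := by
  rw [live_iff_base hΦ hε hW]
  refine ⟨fun h => h.1, fun hb => ⟨hb, ht, fun T' s hs hst hh ha => ?_⟩⟩
  have h1 := fh_hit hΦ hε hb.ok hh
  have h2 := fh_le hΦ hε hb.ok hh
  have h3 : alive Φ ε L W T' (fh Φ ε T T') := alive_anti ha h2 (hit_ext_le h1)
  rcases lt_or_ge (fh Φ ε T T') (sig Φ ε T) with h4 | h4
  · exact base_nohit hΦ hε hW hb h4 h1 h3
  · have h5 : fh Φ ε T T' ∈ times Φ ε L W' :=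
      ⟨(T, T'), ⟨⟨hb.sub.trans hsub, hb.depth⟩, ⟨(alive_pre ha).sub.trans hsub,
        (alive_pre ha).depth⟩⟩, rfl⟩
    exact absurd (h _ h5 h4) (not_le.2 (h2.trans_lt hst))

/-- No event in `(e, t)`. -/
theorem live_iff_lives (hΦ : IsPotential Φ) (hε : 0 < ε) {W' : Set Src}
    (hsub : W ⊆ W') {T : CTree} {e t : ℝ} (he : sig Φ ε T ≤ e) (het : e < t)
    (h : ∀ r ∈ times Φ ε L W', e < r → t ≤ r) :
    live Φ ε L W T t ↔ lives Φ ε L W T e := by
  refine ⟨fun h => h.lives_of_lt het he, fun hl => ⟨hl.sub, hl.ok, hl.depth, he.trans het.le,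
    fun T' s hs hh ha => ?_⟩⟩
  have h1 := fh_hit hΦ hε hl.ok hh
  have h2 := fh_le hΦ hε hl.ok hh
  have h3 : alive Φ ε L W T' (fh Φ ε T T') := alive_anti ha h2 (hit_ext_le h1)
  rcases le_or_gt (fh Φ ε T T') e with h4 | h4
  · exact hl.nohit T' _ h4 h1 h3
  · have h5 : fh Φ ε T T' ∈ times Φ ε L W' :=
      ⟨(T, T'), ⟨⟨hl.sub.trans hsub, hl.depth⟩, ⟨(alive_pre ha).sub.trans hsub,
        (alive_pre ha).depth⟩⟩, rfl⟩
    exact absurd (h _ h5 h4) (not_le.2 (h2.trans_lt hs))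

theorem lives_iff {T : CTree} {t : ℝ} : lives Φ ε L W T t ↔ live Φ ε L W T t ∧
    ∀ T', hit Φ ε T T' t → ¬alive Φ ε L W T' t := by
  refine ⟨fun h => ⟨h.live, fun T' => h.nohit T' t le_rfl⟩, fun ⟨h, h'⟩ =>
    ⟨h.sub, h.ok, h.depth, h.sig_le, fun T' s hs => ?_⟩⟩
  rcases hs.eq_or_lt with h1 | h1
  · subst h1; exact h' T'
  · exact h.nohit T' s h1

end recursion

/-! ### Properties which depend on one index only -/

variable {ι : Type*} [DecidableEq ι]

/-- `P J`, `J ⊆ K`, depends on `i ∈ J` only. -/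
def DepOn (K : Finset ι) (P : Finset ι → Prop) (i : ι) : Prop :=
  ∀ J J', J ⊆ K → J' ⊆ K → (i ∈ J ↔ i ∈ J') → (P J ↔ P J')

/-- `P J`, `J ⊆ K`, depends on one index only. -/
def Dep (K : Finset ι) (P : Finset ι → Prop) : Prop := ∃ i, DepOn K P i

section dep

variable {K : Finset ι} {P Q : Finset ι → Prop} {i j : ι}

omit [DecidableEq ι] in
theorem DepOn.congr (h : DepOn K P i) (hPQ : ∀ J, J ⊆ K → (P J ↔ Q J)) : DepOn K Q i :=
  fun J J' hJ hJ' hi => ((hPQ J hJ).symm.trans (h J J' hJ hJ' hi)).trans (hPQ J' hJ')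

omit [DecidableEq ι] in
theorem Dep.congr (h : Dep K P) (hPQ : ∀ J, J ⊆ K → (P J ↔ Q J)) : Dep K Q := by
  obtain ⟨i, hi⟩ := h
  exact ⟨i, hi.congr hPQ⟩

theorem DepOn.eq_of_dif (h : DepOn K P i) (hj : j ∈ K) (hd : ¬(P ∅ ↔ P {j})) : j = i := by
  by_contra hne
  refine hd (h ∅ {j} (Finset.empty_subset _) (Finset.singleton_subset_iff.2 hj) ?_)
  rw [Finset.mem_singleton]
  exact ⟨fun h => absurd h (Finset.notMem_empty _), fun h => absurd h.symm hne⟩

/-- Either `P` does not depend on `J` at all or the index is in `K` and makes a difference. -/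
theorem DepOn.const_or (h : DepOn K P i) :
    (∀ J J', J ⊆ K → J' ⊆ K → (P J ↔ P J')) ∨ (i ∈ K ∧ ¬(P ∅ ↔ P {i})) := by
  by_cases hi : i ∈ K
  · by_cases hd : P ∅ ↔ P {i}
    · left
      have h1 : ∀ J, J ⊆ K → (P J ↔ P ∅) := by
        intro J hJ
        by_cases hiJ : i ∈ J
        · refine (h J {i} hJ (Finset.singleton_subset_iff.2 hi) ?_).trans hd.symm
          simp [hiJ]
        · refine h J ∅ hJ (Finset.empty_subset _) ?_
          simp [hiJ]
      exact fun J J' hJ hJ' => (h1 J hJ).trans (h1 J' hJ').symm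
    · exact Or.inr ⟨hi, hd⟩
  · left
    intro J J' hJ hJ'
    refine h J J' hJ hJ' ?_
    exact ⟨fun h => absurd (hJ h) hi, fun h => absurd (hJ' h) hi⟩

/-- A common index for a family of properties. -/
theorem exists_common {β : Type*} [Nonempty β] {P : β → Finset ι → Prop}
    (hP : ∀ x, Dep K (P x))
    (hc : ∀ x y, x ≠ y → ∀ i ∈ K, ∀ j ∈ K, i ≠ j → ¬(P x ∅ ↔ P x {i}) → (P y ∅ ↔ P y {j})) :
    ∃ i, ∀ x, DepOn K (P x) i := by
  classical
  by_cases hall : ∀ x, ∀ J J', J ⊆ K → J' ⊆ K → (P x J ↔ P x J')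
  · obtain ⟨i, -⟩ := hP (Classical.arbitrary β)
    exact ⟨i, fun x J J' hJ hJ' _ => hall x J J' hJ hJ'⟩
  · rw [not_forall] at hall
    obtain ⟨x, hx⟩ := hall
    obtain ⟨i, hi⟩ := hP x
    rcases hi.const_or with h1 | ⟨hiK, h1⟩
    · exact absurd h1 hx
    · refine ⟨i, fun y => ?_⟩
      by_cases hxy : x = y
      · rw [← hxy]; exact hi
      obtain ⟨j, hj⟩ := hP y
      rcases hj.const_or with h2 | ⟨hjK, h2⟩
      · exact fun J J' hJ hJ' _ => h2 J J' hJ hJ'
      · by_cases hij : i = j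
        · rw [hij]; exact hj
        · exact absurd (hc x y hxy i hiK j hjK hij h1) h2

end dep

/-! ### The cube of worlds -/

/-- A cube of worlds. -/
structure CubeW (W : Finset ι → Set Src) (K : Finset ι) : Prop where
  fin : ∀ J, J ⊆ K → (W J).Finite
  mono : ∀ J, J ⊆ K → W J ⊆ W K
  dep : ∀ σ, Dep K fun J => σ ∈ W J

/-- No interaction up to time `t`. -/
structure NI (Φ : E3 → ℝ) (ε : ℝ) (L : ℕ) (W : Finset ι → Set Src) (K : Finset ι) (t : ℝ) :
    Prop where
  nohit : ∀ i ∈ K, ∀ j ∈ K, i ≠ j → ∀ s ≤ t, ∀ T T',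
    ¬(live Φ ε L (W ∅) T s ↔ live Φ ε L (W {i}) T s) →
    ¬(alive Φ ε L (W ∅) T' s ↔ alive Φ ε L (W {j}) T' s) → ¬hit Φ ε T T' s
  notie : ∀ i ∈ K, ∀ j ∈ K, i ≠ j → ∀ s ≤ t, ∀ T T₁ T₂, live Φ ε L (W ∅) T s →
    ¬(alive Φ ε L (W ∅) T₁ s ↔ alive Φ ε L (W {i}) T₁ s) →
    ¬(alive Φ ε L (W ∅) T₂ s ↔ alive Φ ε L (W {j}) T₂ s) → hit Φ ε T T₁ s → ¬hit Φ ε T T₂ s

variable {W : Finset ι → Set Src} {K : Finset ι}

/-- The standard cubes. -/
theorem cubeW_union [Nonempty ι] {U : Set Src} {X : ι → Set Src} (hU : U.Finite)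
    (hX : ∀ i, (X i).Finite) (hd : ∀ i j, i ≠ j → Disjoint (X i) (X j)) :
    CubeW (fun J => U ∪ ⋃ i ∈ J, X i) K := by
  refine ⟨fun J _ => hU.union (J.finite_toSet.biUnion fun i _ => hX i), fun J hJ => ?_,
    fun σ => ?_⟩
  · exact union_subset_union_right _ (biUnion_subset_biUnion_left hJ)
  · by_cases hσ : ∃ i, σ ∈ X i
    · obtain ⟨i, hi⟩ := hσ
      refine ⟨i, fun J J' _ _ hJJ => ?_⟩
      have h1 : ∀ J : Finset ι, σ ∈ (U ∪ ⋃ i ∈ J, X i) ↔ σ ∈ U ∨ i ∈ J := by
        intro J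
        rw [mem_union, mem_iUnion₂]
        refine or_congr_right ⟨?_, fun h => ⟨i, h, hi⟩⟩
        rintro ⟨j, hj, hσj⟩
        by_cases hij : i = j
        · rw [hij]; exact hj
        · exact absurd hσj (disjoint_left.1 (hd i j hij) hi)
      exact (h1 J).trans ((or_congr_right hJJ).trans (h1 J').symm)
    · refine ⟨Classical.arbitrary ι, fun J J' _ _ _ => ?_⟩
      have h1 : ∀ J : Finset ι, σ ∈ (U ∪ ⋃ i ∈ J, X i) ↔ σ ∈ U := by
        intro J
        rw [mem_union, mem_iUnion₂]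
        refine ⟨?_, Or.inl⟩
        rintro (h | ⟨j, -, hj⟩)
        · exact h
        · exact absurd ⟨j, hj⟩ hσ
      exact (h1 J).trans (h1 J').symm

omit [DecidableEq ι] in
theorem dep_and_const {P : Finset ι → Prop} {c : Prop} (h : Dep K P) :
    Dep K fun J => P J ∧ c := by
  obtain ⟨i, hi⟩ := h
  exact ⟨i, fun J J' hJ hJ' hij => and_congr_left fun _ => hi J J' hJ hJ' hij⟩

/-- The step: from `live` at time `e` to `lives` at time `e`. -/
theorem lives_dep_of_live (hΦ : IsPotential Φ) (hε : 0 < ε) (hC : CubeW W K) {t e : ℝ}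
    (hNI : NI Φ ε L W K t) (he : e ≤ t)
    (hl : ∀ T, Dep K fun J => live Φ ε L (W J) T e) (T : CTree) :
    Dep K fun J => lives Φ ε L (W J) T e := by
  have ha : ∀ T, Dep K fun J => alive Φ ε L (W J) T e := fun T =>
    (dep_and_const (c := ext Φ ε T ≤ e) (hl T)).congr fun J hJ =>
      (alive_iff_live hΦ hε (hC.fin J hJ)).symm
  by_cases hex : ∃ J, J ⊆ K ∧ live Φ ε L (W J) T e
  swap
  · obtain ⟨i, -⟩ := hl T
    refine ⟨i, fun J J' hJ hJ' _ => ⟨fun h => absurd ⟨J, hJ, h.live⟩ hex,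
      fun h => absurd ⟨J', hJ', h.live⟩ hex⟩⟩
  -- the family: `T` itself and all the trees which hit `T` at time `e`
  let β := Option {T' : CTree // hit Φ ε T T' e}
  let P : β → Finset ι → Prop := fun x => match x with
    | none => fun J => live Φ ε L (W J) T e
    | some T' => fun J => alive Φ ε L (W J) T'.1 e
  have hdif : ∀ T', hit Φ ε T T' e → ∀ i ∈ K, ∀ j ∈ K, i ≠ j →
      ¬(live Φ ε L (W ∅) T e ↔ live Φ ε L (W {i}) T e) →
      (alive Φ ε L (W ∅) T' e ↔ alive Φ ε L (W {j}) T' e) := by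
    intro T' hT' i hi j hj hij h1
    by_contra h2
    exact hNI.nohit i hi j hj hij e he T T' h1 h2 hT'
  have hcommon : ∃ i, ∀ x, DepOn K (P x) i := by
    refine exists_common (fun x => ?_) ?_
    · rcases x with _ | T'
      · exact hl T
      · exact ha T'.1
    · rintro (_ | T₁) (_ | T₂) hxy i hi j hj hij h1
      · exact absurd rfl hxy
      · exact hdif T₂.1 T₂.2 i hi j hj hij h1
      · by_contra h2
        exact h1 (hdif T₁.1 T₁.2 j hj i hi hij.symm h2)
      · by_contra h2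
        by_cases h3 : live Φ ε L (W ∅) T e
        · exact hNI.notie i hi j hj hij e he T T₁.1 T₂.1 h3 h1 h2 T₁.2 T₂.2
        · -- `T` is live in some world but not in `W ∅`
          obtain ⟨k, hk⟩ := hl T
          rcases hk.const_or with h4 | ⟨hkK, h4⟩
          · obtain ⟨J, hJ, h5⟩ := hex
            exact h3 ((h4 ∅ J (Finset.empty_subset _) hJ).2 h5)
          · by_cases hki : k = i
            · subst hki
              exact h2 (hdif T₂.1 T₂.2 k hkK j hj hij h4)
            · exact h1 (hdif T₁.1 T₁.2 k hkK i hi hki h4)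
  obtain ⟨i, hi⟩ := hcommon
  refine ⟨i, fun J J' hJ hJ' hij => ?_⟩
  change lives Φ ε L (W J) T e ↔ lives Φ ε L (W J') T e
  rw [lives_iff, lives_iff]
  refine and_congr (hi none J J' hJ hJ' hij) (forall_congr' fun T' => ?_)
  refine imp_congr_right fun hT' => not_congr ?_
  exact hi (some ⟨T', hT'⟩) J J' hJ hJ' hij

/-- **Superposition**: `live` depends on one index only. -/
theorem live_dep (hΦ : IsPotential Φ) (hε : 0 < ε) (hC : CubeW W K) {t₀ : ℝ}
    (hNI : NI Φ ε L W K t₀) (T : CTree) {t : ℝ} (ht : t ≤ t₀) :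
    Dep K fun J => live Φ ε L (W J) T t := by
  set 𝒯 := times Φ ε L (W K) with h𝒯
  have hfin : 𝒯.Finite := times_finite (hC.fin K (Finset.Subset.refl K))
  have hfin' : ∀ t, (𝒯 ∩ Iio t).Finite := fun t => hfin.inter_of_left _
  have hnone : Dep K fun _ : Finset ι => False := by
    obtain ⟨i, -⟩ := hC.dep T.root
    exact ⟨i, fun _ _ _ _ _ => Iff.rfl⟩
  suffices H : ∀ n : ℕ, ∀ (T : CTree) (t : ℝ), t ≤ t₀ → (𝒯 ∩ Iio t).ncard ≤ n →
      Dep K fun J => live Φ ε L (W J) T t from H _ T t ht le_rfl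
  intro n
  induction n using Nat.strong_induction_on with
  | _ n IH =>
    intro T
    induction T with
    | leaf σ =>
      intro t ht hn
      rcases lt_or_ge t (sig Φ ε (leaf σ)) with hst | hst
      · exact hnone.congr fun J _ => ⟨fun h => h.elim, fun h => absurd h.sig_le (not_le.2 hst)⟩
      by_cases hE : (𝒯 ∩ Ico (sig Φ ε (leaf σ)) t).Nonempty
      · obtain ⟨e, he, hmax⟩ := (hfin.inter_of_left _).exists_maximalFor id _ hE
        have h1 : (𝒯 ∩ Iio e).ncard < (𝒯 ∩ Iio t).ncard := by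
          refine ncard_lt_ncard ?_ (hfin' t)
          refine ⟨fun x hx => ⟨hx.1, lt_trans hx.2 he.2.2⟩, fun hcon => ?_⟩
          exact absurd (hcon ⟨he.1, he.2.2⟩).2 (lt_irrefl e)
        have h2 : ∀ T, Dep K fun J => live Φ ε L (W J) T e := fun T =>
          IH _ (h1.trans_le hn) T e (he.2.2.le.trans ht) le_rfl
        refine (lives_dep_of_live hΦ hε hC hNI (he.2.2.le.trans ht) h2 (leaf σ)).congr
          fun J hJ => (live_iff_lives hΦ hε (hC.mono J hJ) he.2.1 he.2.2 fun r hr her => ?_).symm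
        by_contra hcon
        exact absurd (hmax ⟨hr, he.2.1.trans her.le, not_le.1 hcon⟩ her.le) (not_le.2 her)
      · refine Dep.congr ?_ fun J hJ =>
          (live_iff_of_no_times hΦ hε (hC.fin J hJ) (hC.mono J hJ) hst fun r hr hsr => ?_).symm
        · exact dep_and_const (hC.dep σ)
        · by_contra hcon
          exact hE ⟨r, hr, hsr, not_le.1 hcon⟩
    | node a b iha ihb =>
      intro t ht hn
      rcases lt_or_ge t (sig Φ ε (node a b)) with hst | hst
      · exact hnone.congr fun J _ => ⟨fun h => h.elim, fun h => absurd h.sig_le (not_le.2 hst)⟩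
      by_cases hE : (𝒯 ∩ Ico (sig Φ ε (node a b)) t).Nonempty
      · obtain ⟨e, he, hmax⟩ := (hfin.inter_of_left _).exists_maximalFor id _ hE
        have h1 : (𝒯 ∩ Iio e).ncard < (𝒯 ∩ Iio t).ncard := by
          refine ncard_lt_ncard ?_ (hfin' t)
          refine ⟨fun x hx => ⟨hx.1, lt_trans hx.2 he.2.2⟩, fun hcon => ?_⟩
          exact absurd (hcon ⟨he.1, he.2.2⟩).2 (lt_irrefl e)
        have h2 : ∀ T, Dep K fun J => live Φ ε L (W J) T e := fun T =>
          IH _ (h1.trans_le hn) T e (he.2.2.le.trans ht) le_rfl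
        refine (lives_dep_of_live hΦ hε hC hNI (he.2.2.le.trans ht) h2 (node a b)).congr
          fun J hJ => (live_iff_lives hΦ hε (hC.mono J hJ) he.2.1 he.2.2 fun r hr her => ?_).symm
        by_contra hcon
        exact absurd (hmax ⟨hr, he.2.1.trans her.le, not_le.1 hcon⟩ her.le) (not_le.2 her)
      · refine Dep.congr ?_ fun J hJ =>
          (live_iff_of_no_times hΦ hε (hC.fin J hJ) (hC.mono J hJ) hst fun r hr hsr => ?_).symm
        swap
        · by_contra hcon
          exact hE ⟨r, hr, hsr, not_le.1 hcon⟩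
        by_cases hok : ok Φ ε (node a b)
        swap
        · exact hnone.congr fun J _ => ⟨fun h => h.elim, fun h => absurd h.1 hok⟩
        set σ := sig Φ ε (node a b) with hσ
        have h3 : (𝒯 ∩ Iio σ).ncard ≤ n :=
          (ncard_le_ncard (inter_subset_inter_right _ (Iio_subset_Iio hst)) (hfin' t)).trans hn
        have hla := iha σ (hst.trans ht) h3
        have hlb := ihb σ (hst.trans ht) h3
        have ha : Dep K fun J => alive Φ ε L (W J) a σ :=
          (dep_and_const (c := ext Φ ε a ≤ σ) hla).congr fun J hJ =>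
            (alive_iff_live hΦ hε (hC.fin J hJ)).symm
        have hb : Dep K fun J => alive Φ ε L (W J) b σ :=
          (dep_and_const (c := ext Φ ε b ≤ σ) hlb).congr fun J hJ =>
            (alive_iff_live hΦ hε (hC.fin J hJ)).symm
        -- differences of `alive` are differences of `live`
        have hdif : ∀ c : CTree, ∀ i ∈ K,
            ¬(alive Φ ε L (W ∅) c σ ↔ alive Φ ε L (W {i}) c σ) →
            ¬(live Φ ε L (W ∅) c σ ↔ live Φ ε L (W {i}) c σ) := by
          intro c i hi h h'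
          refine h ?_
          rw [alive_iff_live hΦ hε (hC.fin _ (Finset.empty_subset _)),
            alive_iff_live hΦ hε (hC.fin _ (Finset.singleton_subset_iff.2 hi)), h']
        have hcommon : ∃ i, ∀ x : Bool, DepOn K
            (fun J => alive Φ ε L (W J) (bif x then a else b) σ) i := by
          refine exists_common (fun x => ?_) ?_
          · rcases x with _ | _
            · exact hb
            · exact ha
          · rintro (_ | _) (_ | _) hxy i hi j hj hij h1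
            · exact absurd rfl hxy
            · by_contra h2
              exact hNI.nohit i hi j hj hij σ (hst.trans ht) b a (hdif b i hi h1) h2
                (hit_sig' hΦ hε hok)
            · by_contra h2
              exact hNI.nohit i hi j hj hij σ (hst.trans ht) a b (hdif a i hi h1) h2
                (hit_sig hΦ hε hok)
            · exact absurd rfl hxy
        obtain ⟨i, hi⟩ := hcommon
        refine ⟨i, fun J J' hJ hJ' hij => ?_⟩
        have e1 := hi true J J' hJ hJ' hij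
        have e2 := hi false J J' hJ hJ' hij
        simp only [cond_true, cond_false] at e1 e2
        exact and_congr_right fun _ => and_congr_right fun _ => and_congr e1 e2

theorem alive_dep (hΦ : IsPotential Φ) (hε : 0 < ε) (hC : CubeW W K) {t₀ : ℝ}
    (hNI : NI Φ ε L W K t₀) (T : CTree) {t : ℝ} (ht : t ≤ t₀) :
    Dep K fun J => alive Φ ε L (W J) T t :=
  (dep_and_const (c := ext Φ ε T ≤ t) (live_dep hΦ hε hC hNI T ht)).congr fun J hJ =>
    (alive_iff_live hΦ hε (hC.fin J hJ)).symm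

theorem lives_dep (hΦ : IsPotential Φ) (hε : 0 < ε) (hC : CubeW W K) {t₀ : ℝ}
    (hNI : NI Φ ε L W K t₀) (T : CTree) {t : ℝ} (ht : t ≤ t₀) :
    Dep K fun J => lives Φ ε L (W J) T t :=
  lives_dep_of_live hΦ hε hC hNI ht (fun T => live_dep hΦ hε hC hNI T ht) T

/-- A world in which a given property (depending on `j` only) holds, with and without `i`. -/
theorem exists_two {P : Finset ι → Prop} {i j : ι} (hj : j ∈ K) (hi : i ∈ K) (hij : i ≠ j)
    (h : Dep K P) (hd : ¬(P ∅ ↔ P {j})) :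
    ∃ J, J ⊆ K ∧ insert i J ⊆ K ∧ i ∉ J ∧ P J ∧ P (insert i J) := by
  obtain ⟨k, hk⟩ := h
  obtain rfl := hk.eq_of_dif hj hd
  have h0 : ∀ J, J ⊆ K → i ∉ J → (j ∈ J ↔ j ∈ insert i J) := by
    intro J _ _
    rw [Finset.mem_insert]
    exact ⟨Or.inr, fun h => h.resolve_left fun h => hij h.symm⟩
  by_cases h1 : P ∅
  · have h2 : insert i ∅ ⊆ K := Finset.insert_subset hi (Finset.empty_subset _)
    refine ⟨∅, Finset.empty_subset _, h2, Finset.notMem_empty _, h1, ?_⟩
    exact (hk ∅ _ (Finset.empty_subset _) h2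
      (h0 ∅ (Finset.empty_subset _) (Finset.notMem_empty _))).1 h1
  · have h2 : P {j} := by
      by_contra hcon
      exact hd ⟨fun h => absurd h h1, fun h => absurd h hcon⟩
    have h3 : ({j} : Finset ι) ⊆ K := Finset.singleton_subset_iff.2 hj
    have h4 : insert i {j} ⊆ K := Finset.insert_subset hi h3
    have h5 : i ∉ ({j} : Finset ι) := by rw [Finset.mem_singleton]; exact hij
    exact ⟨{j}, h3, h4, h5, h2, (hk _ _ h3 h4 (h0 _ h3 h5)).1 h2⟩

/-- **Superposition for the particles**: the presence and the statuses of a particle up to `t₀` depend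
on one index only. -/
theorem label_dep (hΦ : IsPotential Φ) (hε : 0 < ε) (hC : CubeW W K) {t₀ : ℝ}
    (hNI : NI Φ ε L W K t₀) (a : Src) : ∃ i, ∀ J J', J ⊆ K → J' ⊆ K → (i ∈ J ↔ i ∈ J') →
      (a ∈ W J ↔ a ∈ W J') ∧ ∀ s ≤ t₀, stat Φ ε L (W J) a s = stat Φ ε L (W J') a s := by
  let β := Option ({T : CTree // T.root = a} × {s : ℝ // s ≤ t₀})
  let P : β → Finset ι → Prop := fun x => match x with
    | none => fun J => a ∈ W J
    | some p => fun J => lives Φ ε L (W J) p.1.1 p.2.1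
  have hP : ∀ x, Dep K (P x) := by
    rintro (_ | p)
    · exact hC.dep a
    · exact lives_dep hΦ hε hC hNI p.1.1 p.2.2
  -- two times
  have key : ∀ (T₁ T₂ : CTree) (s₁ s₂ : ℝ), T₁.root = a → T₂.root = a → s₁ ≤ s₂ → s₂ ≤ t₀ →
      ∀ i ∈ K, ∀ j ∈ K, i ≠ j →
      ¬(lives Φ ε L (W ∅) T₁ s₁ ↔ lives Φ ε L (W {i}) T₁ s₁) →
      ¬(lives Φ ε L (W ∅) T₂ s₂ ↔ lives Φ ε L (W {j}) T₂ s₂) → False := by
    intro T₁ T₂ s₁ s₂ hr₁ hr₂ hs hs₂ i hi j hj hij h1 h2
    have d1 := lives_dep hΦ hε hC hNI T₁ (hs.trans hs₂)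
    have d2 := lives_dep hΦ hε hC hNI T₂ hs₂
    obtain ⟨J, hJ, hJ', hiJ, l1, l2⟩ := exists_two hj hi hij d2 h2
    obtain ⟨k, hk⟩ := d1
    obtain rfl := hk.eq_of_dif hi h1
    have e1 : lives Φ ε L (W J) T₁ s₁ ↔ lives Φ ε L (W ∅) T₁ s₁ :=
      hk J ∅ hJ (Finset.empty_subset _) (by simp [hiJ])
    have e2 : lives Φ ε L (W (insert i J)) T₁ s₁ ↔ lives Φ ε L (W {i}) T₁ s₁ :=
      hk _ {i} hJ' (Finset.singleton_subset_iff.2 hi) (by simp)
    have hborn : a.1 ≤ s₁ := by
      have hb : ∀ W' : Set Src, lives Φ ε L W' T₁ s₁ → a.1 ≤ s₁ := fun W' h => by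
        rw [← hr₁]
        exact (root_birth_le_sig hΦ hε h.ok).trans h.sig_le
      by_cases h3 : lives Φ ε L (W ∅) T₁ s₁
      · exact hb _ h3
      · by_cases h4 : lives Φ ε L (W {i}) T₁ s₁
        · exact hb _ h4
        · exact absurd ⟨fun h => absurd h h3, fun h => absurd h h4⟩ h1
    have c1 : lives Φ ε L (W J) (cur Φ ε T₂ s₁) s₁ :=
      lives_cur hΦ hε (hC.fin J hJ) l1 hs (by rw [hr₂]; exact hborn)
    have c2 : lives Φ ε L (W (insert i J)) (cur Φ ε T₂ s₁) s₁ :=
      lives_cur hΦ hε (hC.fin _ hJ') l2 hs (by rw [hr₂]; exact hborn)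
    have hcr : (cur Φ ε T₂ s₁).root = T₁.root := by rw [cur_root, hr₁, hr₂]
    refine h1 ?_
    rw [← e1, ← e2]
    constructor
    · intro h
      rw [← lives_unique hΦ hε (hC.fin J hJ) c1 h hcr]
      exact c2
    · intro h
      rw [← lives_unique hΦ hε (hC.fin _ hJ') c2 h hcr]
      exact c1
  -- presence
  have key' : ∀ (T : CTree) (s : ℝ), T.root = a → s ≤ t₀ → ∀ i ∈ K, ∀ j ∈ K, i ≠ j →
      ¬(a ∈ W ∅ ↔ a ∈ W {i}) → ¬(lives Φ ε L (W ∅) T s ↔ lives Φ ε L (W {j}) T s) → False := by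
    intro T s hr hs i hi j hj hij h1 h2
    obtain ⟨J, hJ, hJ', hiJ, l1, l2⟩ := exists_two hj hi hij (lives_dep hΦ hε hC hNI T hs) h2
    obtain ⟨k, hk⟩ := hC.dep a
    obtain rfl := hk.eq_of_dif hi h1
    have e1 : a ∈ W J ↔ a ∈ W ∅ := hk J ∅ hJ (Finset.empty_subset _) (by simp [hiJ])
    have e2 : a ∈ W (insert i J) ↔ a ∈ W {i} :=
      hk _ {i} hJ' (Finset.singleton_subset_iff.2 hi) (by simp)
    refine h1 ?_
    rw [← e1, ← e2]
    have m1 : a ∈ W J := hr ▸ l1.sub T.root_mem_leaves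
    have m2 : a ∈ W (insert i J) := hr ▸ l2.sub T.root_mem_leaves
    exact ⟨fun _ => m2, fun _ => m1⟩
  have hcommon : ∃ i, ∀ x, DepOn K (P x) i := by
    refine exists_common hP ?_
    rintro (_ | ⟨⟨T₁, r₁⟩, s₁, hs₁⟩) (_ | ⟨⟨T₂, r₂⟩, s₂, hs₂⟩) hxy i hi j hj hij h1
    · exact absurd rfl hxy
    · by_contra h2
      exact key' T₂ s₂ r₂ hs₂ i hi j hj hij h1 h2
    · by_contra h2
      exact key' T₁ s₁ r₁ hs₁ j hj i hi hij.symm h2 h1
    · by_contra h2
      rcases le_total s₁ s₂ with h3 | h3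
      · exact key T₁ T₂ s₁ s₂ r₁ r₂ h3 hs₂ i hi j hj hij h1 h2
      · exact key T₂ T₁ s₂ s₁ r₂ r₁ h3 hs₁ j hj i hi hij.symm h2 h1
  obtain ⟨i, hi⟩ := hcommon
  refine ⟨i, fun J J' hJ hJ' hij => ⟨hi none J J' hJ hJ' hij, fun s hs => ?_⟩⟩
  refine Option.ext fun T => ?_
  rw [stat_eq_some_iff hΦ hε (hC.fin J hJ),
    stat_eq_some_iff hΦ hε (hC.fin J' hJ')]
  refine and_congr_right fun hr => ?_
  exact hi (some ⟨⟨T, hr⟩, ⟨s, hs⟩⟩) J J' hJ hJ' hij

end Vale.Agent.P119.M
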