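import Vale.Agent.P119.M.SupBad
import Vale.Agent.P119.RB.Tie

/-!
# P119: the good event (`helper472`)

* `wF V X J` is the world with the common particles `V` and the particles `X j`, `j ∈ J`;
* `Good Φ ε L V X K t`: the packets `X i`, `i ∈ K`, are disjoint, and there is no interaction between
  different packets up to time `t` (`NI`, `NIB` for the worlds `wF V X J`, `J ⊆ K`);
* `Good.cubeW`, `Good.cube`: then these worlds form a cube (in the sense of `FB.Sys.Cube`), and
  `Good.loc`, `Good.transfer`, `Good.part`;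
* `Good.mono`, `Good.subset`, **`Good.face`** (one packet becomes part of the common particles),
  `Good.comp`, `Good.of_pairs` (only pairs of packets matter).
-/

open MeasureTheory Filter Topology Set
open scoped ENNReal NNReal

noncomputable section

namespace Vale.Agent.P119.M

open KU CTree RB

/-! ### Faces of a cube -/

section face

variable {ι : Type*} [DecidableEq ι] {K : Finset ι} {P : Finset ι → Prop} {e i k : ι}

theorem DepOn.dif_face (h : DepOn K P k) (he : e ∈ K) (hi : i ∈ K)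
    (hd : ¬(P (insert e ∅) ↔ P (insert e {i}))) :
    k = i ∧ k ≠ e := by
  have h1 : (insert e ∅ : Finset ι) ⊆ K := Finset.insert_subset he (Finset.empty_subset _)
  have h2 : (insert e {i} : Finset ι) ⊆ K :=
    Finset.insert_subset he (Finset.singleton_subset_iff.2 hi)
  have h3 : ¬(k ∈ (insert e ∅ : Finset ι) ↔ k ∈ (insert e {i} : Finset ι)) := fun h' =>
    hd (h _ _ h1 h2 h')
  rw [Finset.mem_insert, Finset.mem_insert, Finset.mem_singleton] at h3
  have h4 : k ∉ (∅ : Finset ι) := Finset.notMem_empty _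
  by_cases h5 : k = e
  · exact absurd (iff_of_true (Or.inl h5) (Or.inl h5)) h3
  · refine ⟨?_, h5⟩
    by_contra h6
    refine h3 (iff_of_false ?_ ?_)
    · rintro (h | h)
      · exact h5 h
      · exact h4 h
    · rintro (h | h)
      · exact h5 h
      · exact h6 h

theorem Dep.dif_face (h : Dep K P) (he : e ∈ K) (hi : i ∈ K)
    (hd : ¬(P (insert e ∅) ↔ P (insert e {i}))) : ¬(P ∅ ↔ P {i}) := by
  obtain ⟨k, hk⟩ := h
  obtain ⟨rfl, h1⟩ := hk.dif_face he hi hd
  have h2 : (insert e ∅ : Finset ι) ⊆ K := Finset.insert_subset he (Finset.empty_subset _)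
  have h3 : (insert e {k} : Finset ι) ⊆ K :=
    Finset.insert_subset he (Finset.singleton_subset_iff.2 hi)
  have e1 : P ∅ ↔ P (insert e ∅) := hk _ _ (Finset.empty_subset _) h2 (by simp [h1])
  have e2 : P {k} ↔ P (insert e {k}) :=
    hk _ _ (Finset.singleton_subset_iff.2 hi) h3 (by simp)
  rw [e1, e2]
  exact hd

end face

section general

variable {Φ : E3 → ℝ} {ε : ℝ} {L : ℕ} {ι : Type*} [DecidableEq ι] {W : Finset ι → Set Src}
  {K K' : Finset ι} {e i : ι} {a : Src} {s t : ℝ}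

omit [DecidableEq ι] in
theorem CubeW.subset (h : CubeW W K) (hK : K' ⊆ K) (hm : ∀ J, J ⊆ K' → W J ⊆ W K') :
    CubeW W K' := by
  refine ⟨fun J hJ => h.fin J (hJ.trans hK), hm, fun σ => ?_⟩
  obtain ⟨i, hi⟩ := h.dep σ
  exact ⟨i, fun J J' hJ hJ' => hi J J' (hJ.trans hK) (hJ'.trans hK)⟩

omit [DecidableEq ι] in
theorem NI.mono (h : NI Φ ε L W K t) (hst : s ≤ t) : NI Φ ε L W K s :=
  ⟨fun i hi j hj hij r hr => h.nohit i hi j hj hij r (hr.trans hst),
    fun i hi j hj hij r hr => h.notie i hi j hj hij r (hr.trans hst)⟩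

omit [DecidableEq ι] in
theorem NI.subset (h : NI Φ ε L W K t) (hK : K' ⊆ K) : NI Φ ε L W K' t :=
  ⟨fun i hi j hj => h.nohit i (hK hi) j (hK hj), fun i hi j hj => h.notie i (hK hi) j (hK hj)⟩

omit [DecidableEq ι] in
theorem NIB.mono (h : NIB Φ ε L W K t) (hst : s ≤ t) : NIB Φ ε L W K s :=
  ⟨fun i hi j hj hij r hr => h.nocon i hi j hj hij r (hr.trans hst),
    fun i hi r hr => h.nobad i hi r (hr.trans hst)⟩

omit [DecidableEq ι] in
theorem NIB.subset (h : NIB Φ ε L W K t) (hK : K' ⊆ K) : NIB Φ ε L W K' t :=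
  ⟨fun i hi j hj => h.nocon i (hK hi) j (hK hj), fun i hi => h.nobad i (hK hi)⟩

theorem NI.face (hΦ : IsPotential Φ) (hε : 0 < ε) (hC : CubeW W K) (h : NI Φ ε L W K t)
    (he : e ∈ K) : NI Φ ε L (fun J => W (insert e J)) (K.erase e) t := by
  refine ⟨fun i hi j hj hij s hs T T' h1 h2 => ?_, fun i hi j hj hij s hs T T₁ T₂ h0 h1 h2 h3 => ?_⟩
  · have hi := Finset.mem_of_mem_erase hi
    have hj := Finset.mem_of_mem_erase hj
    exact h.nohit i hi j hj hij s hs T T' ((live_dep hΦ hε hC h T hs).dif_face he hi h1)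
      ((alive_dep hΦ hε hC h T' hs).dif_face he hj h2)
  · obtain ⟨hie, hi⟩ := Finset.mem_erase.1 hi
    obtain ⟨-, hj⟩ := Finset.mem_erase.1 hj
    have k1 := (alive_dep hΦ hε hC h T₁ hs).dif_face he hi h1
    have k2 := (alive_dep hΦ hε hC h T₂ hs).dif_face he hj h2
    by_cases h4 : live Φ ε L (W ∅) T s
    · exact h.notie i hi j hj hij s hs T T₁ T₂ h4 k1 k2 h3
    · refine absurd h3 (h.nohit e he i hi hie.symm s hs T T₁ ?_ k1)
      exact fun h5 => h4 (h5.2 h0)

theorem NIB.face (hΦ : IsPotential Φ) (hε : 0 < ε) (hC : CubeW W K) (hNI : NI Φ ε L W K t)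
    (h : NIB Φ ε L W K t) (he : e ∈ K) :
    NIB Φ ε L (fun J => W (insert e J)) (K.erase e) t := by
  have hL : ∀ c, ∃ i, LabelDep Φ ε L W K t c i := label_dep hΦ hε hC hNI
  have hsub : ∀ {i : ι}, i ∈ K → ∀ {I : Finset ι}, I ⊆ {i} → I ⊆ K ∧ insert e I ⊆ K := by
    intro i hi I hI
    have := hI.trans (Finset.singleton_subset_iff.2 hi)
    exact ⟨this, Finset.insert_subset he this⟩
  have hL' : ∀ {c : Src} {k i : ι}, LabelDep Φ ε L W K t c k → i ∈ K → k ≠ e →
      ∀ {I : Finset ι}, I ⊆ {i} → Same Φ ε L (W (insert e I)) (W I) c t := by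
    intro c k i hk hi hke I hI
    refine hk _ _ (hsub hi hI).2 (hsub hi hI).1 ?_
    rw [Finset.mem_insert]
    exact ⟨fun h => h.resolve_left hke, Or.inr⟩
  -- altered in the face
  have halt : ∀ {c : Src} {i : ι} {s : ℝ}, i ∈ K → s ≤ t →
      altd Φ ε L (fun J => W (insert e J)) i c s →
      LabelDep Φ ε L W K t c i ∧ i ≠ e ∧ altd Φ ε L W i c s := by
    intro c i s hi hs h1
    obtain ⟨k, hk⟩ := hL c
    have h2 : k = i ∧ k ≠ e := by
      have h3 : ¬(k ∈ (insert e ∅ : Finset ι) ↔ k ∈ (insert e {i} : Finset ι)) := fun h' =>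
        h1 ((hk _ _ (hsub hi (Finset.empty_subset _)).2 (hsub hi (Finset.Subset.refl _)).2
          h').mono hs)
      refine (DepOn.dif_face (K := K) (P := fun J => k ∈ J) (k := k) (e := e) (i := i)
        (fun J J' _ _ h => h) he hi h3)
    obtain ⟨rfl, h2⟩ := h2
    refine ⟨hk, h2, fun h3 => h1 ?_⟩
    have e1 := (hL' hk hi h2 (Finset.empty_subset {k})).mono hs
    have e2 := (hL' hk hi h2 (Finset.Subset.refl {k})).mono hs
    exact ⟨(e1.1.trans h3.1).trans e2.1.symm, fun r hr =>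
      ((e1.2 r hr).trans (h3.2 r hr)).trans (e2.2 r hr).symm⟩
  refine ⟨fun i hi j hj hij s hs a b hab h1 h2 I hI J hJ T T' h3 h4 h5 h6 h7 => ?_,
    fun i hi s hs a b h1 h2 I hI hn hm => ?_⟩
  · have hi := Finset.mem_of_mem_erase hi
    have hj := Finset.mem_of_mem_erase hj
    obtain ⟨la, na, aa⟩ := halt hi hs h1
    obtain ⟨lb, nb, ab⟩ := halt hj hs h2
    have sa := hL' la hi na hI
    have sb := hL' lb hj nb hJ
    obtain ⟨S, k1, k2, k3⟩ := live_congr' hΦ hε (hC.fin _ (hsub hi hI).2)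
      (hC.fin _ (hsub hi hI).1) (by rw [h3]; exact sa.1.1)
      (by rw [h3]; exact fun r hr => sa.2 r (hr.le.trans hs)) h5
    obtain ⟨S', k1', k2', k3'⟩ := live_congr' hΦ hε (hC.fin _ (hsub hj hJ).2)
      (hC.fin _ (hsub hj hJ).1) (by rw [h4]; exact sb.1.1)
      (by rw [h4]; exact fun r hr => sb.2 r (hr.le.trans hs)) h6
    refine h.nocon i hi j hj hij s hs a b hab aa ab I hI J hJ S S' (k1.trans h3) (k1'.trans h4)
      k2 k2' ?_
    rw [k3, k3']
    exact h7
  · obtain ⟨hie, hiK⟩ := Finset.mem_erase.1 hi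
    clear hi
    have hi := hiK
    obtain ⟨lb, nb, ab⟩ := halt hi hs h2
    have sb := (hL' lb hi nb hI).mono hs
    obtain ⟨hI1, hI2⟩ := hsub hi hI
    -- it is enough that `a` is the same
    have key : Same Φ ε L (W (insert e I)) (W I) a s → ¬altd Φ ε L W i a s → False := by
      intro h3 h4
      refine h.nobad i hi s hs a b h4 ab I hI ?_
        (h3.mcon hΦ hε (hC.fin _ hI2) (hC.fin _ hI1) sb hm)
      rw [← h3.2 s le_rfl]
      exact hn
    obtain ⟨k, hk⟩ := hL a
    rcases hk.altd_or hs with ⟨hkK, hka⟩ | hall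
    swap
    · refine key (hall _ _ hI2 hI1) (not_not.2 ?_)
      exact hall ∅ {i} (Finset.empty_subset _) (Finset.singleton_subset_iff.2 hi)
    by_cases hke : k = e
    · subst hke
      have h3 : Same Φ ε L (W (insert k I)) (W {k}) a t :=
        hk _ _ hI2 (Finset.singleton_subset_iff.2 hkK) (by simp)
      obtain ⟨hne, T, T', g1, g2, g3, g4, g5⟩ := hm
      obtain ⟨S, k1, k2, k3⟩ := live_congr' hΦ hε (hC.fin _ hI2)
        (hC.fin {k} (Finset.singleton_subset_iff.2 hkK)) (by rw [g1]; exact h3.1.1)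
        (by rw [g1]; exact fun r hr => h3.2 r (hr.le.trans hs)) g3
      obtain ⟨S', k1', k2', k3'⟩ := live_congr' hΦ hε (hC.fin _ hI2)
        (hC.fin _ hI1) (by rw [g2]; exact sb.1.1)
        (by rw [g2]; exact fun r hr => sb.2 r hr.le) g4
      refine h.nocon k hkK i hi hie.symm s hs a b hne hka ab {k} (Finset.Subset.refl _) I hI S S'
        (k1.trans g1) (k1'.trans g2) k2 k2' ?_
      rw [k3, k3']
      exact g5
    · have h3 : Same Φ ε L (W (insert e I)) (W I) a s := by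
        refine (hk _ _ hI2 hI1 ?_).mono hs
        rw [Finset.mem_insert]
        exact ⟨fun h => h.resolve_left hke, Or.inr⟩
      by_cases hki : k = i
      · subst hki
        have e0 : Same Φ ε L (W (insert e ∅)) (W (insert e {k})) a s := not_not.1 h1
        have e1 := (hL' hk hi hke (Finset.empty_subset {k})).mono hs
        have e2 := (hL' hk hi hke (Finset.Subset.refl {k})).mono hs
        refine key h3 fun h4 => h4 ⟨(e1.1.symm.trans e0.1).trans e2.1, fun r hr => ?_⟩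
        exact ((e1.2 r hr).symm.trans (e0.2 r hr)).trans (e2.2 r hr)
      · exact key h3 fun h4 => hki (hk.eq_of_altd hs hi h4).symm

end general

/-! ### The worlds -/

section worlds

variable {ι κ : Type*} {V : Finset Src} {X X' : ι → Finset Src} {J J' K : Finset ι} {i : ι} {a : Src}

open Classical in
/-- The world with the common particles `V` and the particles `X j`, `j ∈ J`. -/
def wF (V : Finset Src) (X : ι → Finset Src) (J : Finset ι) : Finset Src := V ∪ J.biUnion X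

theorem mem_wF : a ∈ wF V X J ↔ a ∈ V ∨ ∃ j ∈ J, a ∈ X j := by
  unfold wF
  rw [Finset.mem_union, Finset.mem_biUnion]

theorem coe_wF : (wF V X J : Set Src) = (V : Set Src) ∪ ⋃ i ∈ J, (X i : Set Src) := by
  ext a
  simp only [Finset.mem_coe, mem_wF, mem_union, mem_iUnion, exists_prop]

theorem wF_empty : wF V X ∅ = V := by
  ext a
  simp [mem_wF]

theorem wF_singleton [DecidableEq Src] : wF V X {i} = V ∪ X i := by
  ext a
  simp [mem_wF]

theorem coe_wF_empty : (wF V X ∅ : Set Src) = (V : Set Src) := by rw [wF_empty]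

theorem coe_wF_singleton : (wF V X {i} : Set Src) = (V : Set Src) ∪ (X i : Set Src) := by
  ext a
  simp [mem_wF]

theorem wF_insert [DecidableEq Src] [DecidableEq ι] :
    wF V X (insert i J) = wF (V ∪ X i) X J := by
  ext a
  simp only [mem_wF, Finset.mem_insert, Finset.mem_union]
  constructor
  · rintro (h | ⟨j, rfl | h, h'⟩)
    · exact Or.inl (Or.inl h)
    · exact Or.inl (Or.inr h')
    · exact Or.inr ⟨j, h, h'⟩
  · rintro ((h | h) | ⟨j, h, h'⟩)
    · exact Or.inl h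
    · exact Or.inr ⟨i, Or.inl rfl, h⟩
    · exact Or.inr ⟨j, Or.inr h, h'⟩

theorem wF_mono (h : J ⊆ J') : wF V X J ⊆ wF V X J' := by
  intro a
  rw [mem_wF, mem_wF]
  exact Or.imp_right fun ⟨j, hj, ha⟩ => ⟨j, h hj, ha⟩

theorem subset_wF : V ⊆ wF V X J := fun _ ha => mem_wF.2 (Or.inl ha)

theorem X_subset_wF (hi : i ∈ J) : X i ⊆ wF V X J := fun _ ha => mem_wF.2 (Or.inr ⟨i, hi, ha⟩)

theorem wF_congr (h : ∀ j ∈ J, X j = X' j) : wF V X J = wF V X' J := by
  ext a
  rw [mem_wF, mem_wF]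
  refine or_congr_right ⟨?_, ?_⟩
  · rintro ⟨j, hj, ha⟩
    exact ⟨j, hj, h j hj ▸ ha⟩
  · rintro ⟨j, hj, ha⟩
    exact ⟨j, hj, (h j hj).symm ▸ ha⟩

theorem wF_image [DecidableEq ι] (f : κ → ι) (J : Finset κ) :
    wF V X (J.image f) = wF V (fun k => X (f k)) J := by
  ext a
  simp only [mem_wF, Finset.mem_image]
  refine or_congr_right ⟨?_, ?_⟩
  · rintro ⟨j, ⟨k, hk, rfl⟩, ha⟩
    exact ⟨k, hk, ha⟩
  · rintro ⟨k, hk, ha⟩
    exact ⟨_, ⟨k, hk, rfl⟩, ha⟩

/-- The standard cubes. -/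
theorem cubeW_wF [DecidableEq ι] [Nonempty ι]
    (hd : ∀ i ∈ K, ∀ j ∈ K, i ≠ j → Disjoint (X i) (X j)) :
    CubeW (fun J => (wF V X J : Set Src)) K := by
  refine ⟨fun J _ => Finset.finite_toSet _, fun J hJ => Finset.coe_subset.2 (wF_mono hJ),
    fun σ => ?_⟩
  by_cases hσ : ∃ i ∈ K, σ ∈ X i
  · obtain ⟨i, hi, hσ⟩ := hσ
    refine ⟨i, fun J J' hJ hJ' hij => ?_⟩
    have h1 : ∀ J : Finset ι, J ⊆ K → (σ ∈ (wF V X J : Set Src) ↔ σ ∈ V ∨ i ∈ J) := by
      intro J hJ
      rw [Finset.mem_coe, mem_wF]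
      refine or_congr_right ⟨?_, fun h => ⟨i, h, hσ⟩⟩
      rintro ⟨j, hj, hσj⟩
      by_cases hij : i = j
      · rw [hij]; exact hj
      · exact absurd hσj (Finset.disjoint_left.1 (hd i hi j (hJ hj) hij) hσ)
    exact (h1 J hJ).trans ((or_congr_right hij).trans (h1 J' hJ').symm)
  · refine ⟨Classical.arbitrary ι, fun J J' hJ hJ' _ => ?_⟩
    have h1 : ∀ J : Finset ι, J ⊆ K → (σ ∈ (wF V X J : Set Src) ↔ σ ∈ V) := by
      intro J hJ
      rw [Finset.mem_coe, mem_wF]
      refine ⟨?_, Or.inl⟩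
      rintro (h | ⟨j, hj, hσj⟩)
      · exact h
      · exact absurd ⟨j, hJ hj, hσj⟩ hσ
    exact (h1 J hJ).trans (h1 J' hJ').symm

end worlds

/-! ### The good event -/

section good

variable {Φ : E3 → ℝ} {ε : ℝ} {L : ℕ} {ι κ : Type*} {V : Finset Src} {X X' : ι → Finset Src}
  {K K' : Finset ι} {e i j : ι} {a : Src} {s t : ℝ}

/-- **The good event**: there is no interaction between the packets `X i`, `i ∈ K`, up to time `t`. -/
structure Good (Φ : E3 → ℝ) (ε : ℝ) (L : ℕ) (V : Finset Src) (X : ι → Finset Src) (K : Finset ι)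
    (t : ℝ) : Prop where
  birthV : ∀ a ∈ V, 0 ≤ a.1 ∧ a.2.2 ≤ L
  birth : ∀ i ∈ K, ∀ a ∈ X i, 0 ≤ a.1 ∧ a.2.2 ≤ L
  disjV : ∀ i ∈ K, Disjoint V (X i)
  disj : ∀ i ∈ K, ∀ j ∈ K, i ≠ j → Disjoint (X i) (X j)
  ni : NI Φ ε L (fun J => (wF V X J : Set Src)) K t
  nib : NIB Φ ε L (fun J => (wF V X J : Set Src)) K t

namespace Good

theorem bd (h : Good Φ ε L V X K t) {J : Finset ι} (hJ : J ⊆ K) :
    ∀ a ∈ wF V X J, 0 ≤ a.1 ∧ a.2.2 ≤ L := by
  intro a ha
  rcases mem_wF.1 ha with ha | ⟨j, hj, ha⟩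
  · exact h.birthV a ha
  · exact h.birth j (hJ hj) a ha

theorem mono (h : Good Φ ε L V X K t) (hst : s ≤ t) : Good Φ ε L V X K s :=
  ⟨h.birthV, h.birth, h.disjV, h.disj, h.ni.mono hst, h.nib.mono hst⟩

theorem subset (h : Good Φ ε L V X K t) (hK : K' ⊆ K) : Good Φ ε L V X K' t :=
  ⟨h.birthV, fun i hi => h.birth i (hK hi), fun i hi => h.disjV i (hK hi),
    fun i hi j hj => h.disj i (hK hi) j (hK hj), h.ni.subset hK, h.nib.subset hK⟩

theorem congr (h : Good Φ ε L V X K t) (hX : ∀ i ∈ K, X i = X' i) : Good Φ ε L V X' K t := by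
  have h0 : ∀ J : Finset ι, J ⊆ K → wF V X' J = wF V X J := fun J hJ =>
    wF_congr fun j hj => (hX j (hJ hj)).symm
  have h1 : ∀ i ∈ K, ∀ I : Finset ι, I ⊆ {i} → wF V X' I = wF V X I := fun i hi I hI =>
    h0 I (hI.trans (Finset.singleton_subset_iff.2 hi))
  refine ⟨h.birthV, fun i hi => hX i hi ▸ h.birth i hi, fun i hi => hX i hi ▸ h.disjV i hi,
    fun i hi j hj => hX i hi ▸ hX j hj ▸ h.disj i hi j hj, ⟨?_, ?_⟩, ⟨?_, ?_⟩⟩
  · intro i hi j hj hij s hs T T'
    rw [h1 i hi _ (Finset.empty_subset _), h1 i hi _ (Finset.Subset.refl _),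
      h1 j hj _ (Finset.Subset.refl _)]
    exact h.ni.nohit i hi j hj hij s hs T T'
  · intro i hi j hj hij s hs T T₁ T₂
    rw [h1 i hi _ (Finset.empty_subset _), h1 i hi _ (Finset.Subset.refl _),
      h1 j hj _ (Finset.Subset.refl _)]
    exact h.ni.notie i hi j hj hij s hs T T₁ T₂
  · intro i hi j hj hij s hs a b hab h2 h3 I hI J hJ
    unfold altd at h2 h3
    beta_reduce at h2 h3
    rw [h1 i hi _ (Finset.empty_subset _), h1 i hi _ (Finset.Subset.refl _)] at h2
    rw [h1 i hi _ (Finset.empty_subset _), h1 j hj _ (Finset.Subset.refl _)] at h3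
    rw [h1 i hi I hI, h1 j hj J hJ]
    exact h.nib.nocon i hi j hj hij s hs a b hab h2 h3 I hI J hJ
  · intro i hi s hs a b h2 h3 I hI
    unfold altd at h2 h3
    beta_reduce at h2 h3
    rw [h1 i hi _ (Finset.empty_subset _), h1 i hi _ (Finset.Subset.refl _)] at h2 h3
    rw [h1 i hi I hI]
    exact h.nib.nobad i hi s hs a b h2 h3 I hI

/-- Only pairs of packets matter. -/
theorem of_pairs [DecidableEq ι] (hV : ∀ a ∈ V, 0 ≤ a.1 ∧ a.2.2 ≤ L)
    (h : ∀ i ∈ K, ∀ j ∈ K, Good Φ ε L V X {i, j} t) : Good Φ ε L V X K t := by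
  have m1 : ∀ i j : ι, i ∈ ({i, j} : Finset ι) := fun i j => by simp
  have m2 : ∀ i j : ι, j ∈ ({i, j} : Finset ι) := fun i j => by simp
  exact ⟨hV, fun i hi => (h i hi i hi).birth i (m1 i i), fun i hi => (h i hi i hi).disjV i (m1 i i),
    fun i hi j hj => (h i hi j hj).disj i (m1 i j) j (m2 i j),
    ⟨fun i hi j hj => (h i hi j hj).ni.nohit i (m1 i j) j (m2 i j),
      fun i hi j hj => (h i hi j hj).ni.notie i (m1 i j) j (m2 i j)⟩,
    ⟨fun i hi j hj => (h i hi j hj).nib.nocon i (m1 i j) j (m2 i j),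
      fun i hi => (h i hi i hi).nib.nobad i (m1 i i)⟩⟩

/-- Change of the index set. -/
theorem comp (h : Good Φ ε L V X K t) {f : κ → ι} {K' : Finset κ} (hf : ∀ k ∈ K', f k ∈ K)
    (hinj : InjOn f K') : Good Φ ε L V (fun k => X (f k)) K' t := by
  classical
  have h0 : ∀ J : Finset κ, wF V (fun k => X (f k)) J = wF V X (J.image f) := fun J =>
    (wF_image f J).symm
  have h1 : wF V (fun k => X (f k)) ∅ = wF V X ∅ := by rw [h0, Finset.image_empty]
  have h2 : ∀ k : κ, wF V (fun k => X (f k)) {k} = wF V X {f k} := fun k => by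
    rw [h0, Finset.image_singleton]
  have h3 : ∀ {k : κ} {I : Finset κ}, I ⊆ {k} → I.image f ⊆ {f k} := by
    intro k I hI
    have := Finset.image_subset_image (f := f) hI
    rwa [Finset.image_singleton] at this
  refine ⟨h.birthV, fun k hk => h.birth _ (hf k hk), fun k hk => h.disjV _ (hf k hk),
    fun i hi j hj hij => h.disj _ (hf i hi) _ (hf j hj) fun he => hij (hinj hi hj he),
    ⟨?_, ?_⟩, ⟨?_, ?_⟩⟩
  · intro i hi j hj hij s hs T T'
    rw [h1, h2, h2]
    exact h.ni.nohit _ (hf i hi) _ (hf j hj) (fun he => hij (hinj hi hj he)) s hs T T'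
  · intro i hi j hj hij s hs T T₁ T₂
    rw [h1, h2, h2]
    exact h.ni.notie _ (hf i hi) _ (hf j hj) (fun he => hij (hinj hi hj he)) s hs T T₁ T₂
  · intro i hi j hj hij s hs a b hab g1 g2 I hI J hJ
    unfold altd at g1 g2
    beta_reduce at g1 g2
    rw [h1, h2] at g1 g2
    rw [h0, h0]
    exact h.nib.nocon _ (hf i hi) _ (hf j hj) (fun he => hij (hinj hi hj he)) s hs a b hab g1 g2
      _ (h3 hI) _ (h3 hJ)
  · intro i hi s hs a b g1 g2 I hI
    unfold altd at g1 g2
    beta_reduce at g1 g2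
    rw [h1, h2] at g1 g2
    rw [h0]
    exact h.nib.nobad _ (hf i hi) s hs a b g1 g2 _ (h3 hI)

/-- The index of a source. -/
theorem idx (h : Good Φ ε L V X K t) (hi : i ∈ K) (ha : a ∈ X i) :
    ∀ J, J ⊆ K → a ∈ (wF V X J : Set Src) → i ∈ J := by
  intro J hJ hJa
  rcases mem_wF.1 (Finset.mem_coe.1 hJa) with h1 | ⟨j, hj, h1⟩
  · exact absurd ha (Finset.disjoint_left.1 (h.disjV i hi) h1)
  · by_cases hij : i = j
    · rw [hij]; exact hj
    · exact absurd h1 (Finset.disjoint_left.1 (h.disj i hi j (hJ hj) hij) ha)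

section dec

variable [DecidableEq ι]

theorem cubeW [Nonempty ι] (h : Good Φ ε L V X K t) :
    CubeW (fun J => (wF V X J : Set Src)) K := cubeW_wF h.disj

/-- **A packet becomes part of the common particles.** -/
theorem face [DecidableEq Src] (hΦ : IsPotential Φ) (hε : 0 < ε) (h : Good Φ ε L V X K t)
    (he : e ∈ K) : Good Φ ε L (V ∪ X e) X (K.erase e) t := by
  have : Nonempty ι := ⟨e⟩
  have hC := h.cubeW
  have h1 : (fun J => (wF (V ∪ X e) X J : Set Src)) =
      fun J => (wF V X (insert e J) : Set Src) := by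
    funext J
    rw [wF_insert]
  refine ⟨fun a ha => ?_, fun i hi => h.birth i (Finset.mem_of_mem_erase hi), fun i hi => ?_,
    fun i hi j hj => h.disj i (Finset.mem_of_mem_erase hi) j (Finset.mem_of_mem_erase hj), ?_, ?_⟩
  · rcases Finset.mem_union.1 ha with ha | ha
    · exact h.birthV a ha
    · exact h.birth e he a ha
  · obtain ⟨hie, hi⟩ := Finset.mem_erase.1 hi
    exact Finset.disjoint_union_left.2 ⟨h.disjV i hi, h.disj e he i hi hie.symm⟩
  · rw [h1]
    exact h.ni.face hΦ hε hC he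
  · rw [h1]
    exact h.nib.face hΦ hε hC h.ni he

theorem face' [DecidableEq Src] (hΦ : IsPotential Φ) (hε : 0 < ε)
    (h : Good Φ ε L V X (insert e K) t) (he : e ∉ K) : Good Φ ε L (V ∪ X e) X K t := by
  have := h.face hΦ hε (Finset.mem_insert_self e K)
  rwa [Finset.erase_insert he] at this

/-- Several packets become part of the common particles. -/
theorem faces (hΦ : IsPotential Φ) (hε : 0 < ε) {I : Finset ι} (hI : I ⊆ K)
    (h : Good Φ ε L V X K t) : Good Φ ε L (wF V X I) X (K \ I) t := by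
  classical
  induction I using Finset.induction_on with
  | empty => rw [wF_empty, Finset.sdiff_empty]; exact h
  | insert e I he ih =>
    have h1 := ih ((Finset.subset_insert e I).trans hI)
    have h2 : e ∈ K \ I := Finset.mem_sdiff.2 ⟨hI (Finset.mem_insert_self e I), he⟩
    have h3 := h1.face hΦ hε h2
    have h4 : wF V X (insert e I) = wF V X I ∪ X e := by
      ext a
      simp only [mem_wF, Finset.mem_insert, Finset.mem_union]
      constructor
      · rintro (h | ⟨j, rfl | h, h'⟩)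
        · exact Or.inl (Or.inl h)
        · exact Or.inr h'
        · exact Or.inl (Or.inr ⟨j, h, h'⟩)
      · rintro ((h | ⟨j, h, h'⟩) | h)
        · exact Or.inl h
        · exact Or.inr ⟨j, Or.inr h, h'⟩
        · exact Or.inr ⟨e, Or.inl rfl, h⟩
    have h5 : (K \ I).erase e = K \ insert e I := by
      ext i
      simp only [Finset.mem_erase, Finset.mem_sdiff, Finset.mem_insert, not_or]
      tauto
    rw [h4, ← h5]
    exact h3

/-! ### Superposition -/

theorem live_dep [Nonempty ι] (hΦ : IsPotential Φ) (hε : 0 < ε) (h : Good Φ ε L V X K t)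
    (T : CTree) (hs : s ≤ t) : Dep K fun J => live Φ ε L (wF V X J : Set Src) T s :=
  M.live_dep hΦ hε h.cubeW h.ni T hs

theorem alive_dep [Nonempty ι] (hΦ : IsPotential Φ) (hε : 0 < ε) (h : Good Φ ε L V X K t)
    (T : CTree) (hs : s ≤ t) : Dep K fun J => alive Φ ε L (wF V X J : Set Src) T s :=
  M.alive_dep hΦ hε h.cubeW h.ni T hs

theorem lives_dep [Nonempty ι] (hΦ : IsPotential Φ) (hε : 0 < ε) (h : Good Φ ε L V X K t)
    (T : CTree) (hs : s ≤ t) : Dep K fun J => lives Φ ε L (wF V X J : Set Src) T s :=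
  M.lives_dep hΦ hε h.cubeW h.ni T hs

theorem sta_dep [Nonempty ι] (hΦ : IsPotential Φ) (hε : 0 < ε) (h : Good Φ ε L V X K t) (a : Src) :
    ∃ i, ∀ J J', J ⊆ K → J' ⊆ K → (i ∈ J ↔ i ∈ J') →
      ∀ s ≤ t, sta Φ ε L (wF V X J : Set Src) a s = sta Φ ε L (wF V X J' : Set Src) a s :=
  M.sta_dep hΦ hε h.cubeW h.ni h.nib a

/-- **The worlds of a good family of packets form a cube.** -/
theorem cube (hΦ : IsPotential Φ) (hε : 0 < ε) (h : Good Φ ε L V X K t) :
    (Y Φ ε L hΦ hε).Cube (wF V X) K t := by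
  rcases isEmpty_or_nonempty ι with hι | hι
  · refine ⟨fun i _ => hι.elim i, fun I J _ _ a _ s _ => ?_⟩
    rw [Subsingleton.elim I J]
  · exact cube_of_dep fun a => h.sta_dep hΦ hε a

omit [DecidableEq ι] in
theorem loc (hΦ : IsPotential Φ) (hε : 0 < ε) (h : Good Φ ε L V X K t) {I J : Finset ι}
    (hI : I ⊆ K) (hJ : J ⊆ K) : FB.Sys.Loc (Y Φ ε L hΦ hε) (wF V X I) (wF V X J) :=
  Y_loc hΦ hε (fun a ha => (h.bd hI a ha).1) fun a ha => (h.bd hJ a ha).1

omit [DecidableEq ι] in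
theorem transfer (hΦ : IsPotential Φ) (hε : 0 < ε) (h : Good Φ ε L V X K t) {I J : Finset ι}
    (hI : I ⊆ K) (hJ : J ⊆ K) : (Y Φ ε L hΦ hε).Transfer (wF V X I) (wF V X J) :=
  (h.loc hΦ hε hI hJ).transfer

omit [DecidableEq ι] in
theorem part (hΦ : IsPotential Φ) (hε : 0 < ε) (h : Good Φ ε L V X K t) {I J : Finset ι}
    (hI : I ⊆ K) (_ : J ⊆ K) : FB.Sys.Part (Y Φ ε L hΦ hε) (wF V X I) (wF V X J) :=
  Y_Part hΦ hε (h.bd hI)

/-- **Superposition of touches**: if no packet touches the common world before or at `t`, no two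
worlds of the cube touch each other. -/
theorem not_touch [DecidableEq Src] (hΦ : IsPotential Φ) (hε : 0 < ε) (h : Good Φ ε L V X K t) (hs : s ≤ t)
    (hn : ∀ i ∈ K, ¬(Y Φ ε L hΦ hε).Touch V (V ∪ X i) s) {I J : Finset ι} (hI : I ⊆ K)
    (hJ : J ⊆ K) : ¬(Y Φ ε L hΦ hε).Touch (wF V X I) (wF V X J) s := by
  have h0 : ∀ i ∈ K, ¬(Y Φ ε L hΦ hε).Touch (wF V X ∅) (wF V X {i}) s := by
    intro i hi
    rw [wF_empty, wF_singleton]
    exact hn i hi
  have h1 := ((h.cube hΦ hε).mono hs).superpose (fun I J hI hJ => h.transfer hΦ hε hI hJ) h0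
  exact FB.Sys.not_touch_trans (h.transfer hΦ hε hI (Finset.empty_subset _))
    (h.transfer hΦ hε (Finset.empty_subset _) hJ) (fun h' => h1 I hI h'.symm) (h1 J hJ)

/-- At the first time of a touch one of the packets which make the difference touches. -/
theorem touch_tie [DecidableEq Src] (hΦ : IsPotential Φ) (hε : 0 < ε) (h : Good Φ ε L V X K t) (hs : s ≤ t)
    (hn : ∀ i ∈ K, ∀ r < s, ¬(Y Φ ε L hΦ hε).Touch V (V ∪ X i) r) {I J : Finset ι} (hI : I ⊆ K)
    (hJ : J ⊆ K) (hT : (Y Φ ε L hΦ hε).Touch (wF V X I) (wF V X J) s) :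
    ∃ j ∈ K, ¬(j ∈ I ↔ j ∈ J) ∧ (Y Φ ε L hΦ hε).Touch V (V ∪ X j) s := by
  obtain ⟨j, h1, h2, h3⟩ := ((h.cube hΦ hε).mono hs).touch_tie
    (fun I J hI hJ => h.loc hΦ hε hI hJ) (fun I J hI hJ => h.part hΦ hε hI hJ)
    (by
      intro i hi r hr
      rw [wF_empty, wF_singleton]
      exact hn i hi r hr) hI hJ hT
  rw [wF_empty, wF_singleton] at h3
  exact ⟨j, h1, h2, h3⟩

end dec

end Good

end good

end Vale.Agent.P119.M
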