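import Vale.Agent.P119.M.Live

/-!
# P119: the M-world, comparison of two worlds (`helper498`)

* `stat_eq_none_of_lt`, `stat_eventually`, `stat_const`: the status of a particle is a step function;
* `Diff W₁ W₂ t`: the particles with different statuses at some time up to `t`; `first_diff`: the first
  such time is attained;
* `loc_step`: at the first time of difference, the current tree (or a tree which hits it at this time) is
  hit by a tree which is alive in exactly one of the two worlds;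
* `alive_diff`: the root of such a tree has been different before, or is in one world only;
* `alive_transfer`, `live_transfer`, `lives_transfer`;
* `Infl`, `infl_of_xAlive`: the chain of hits from a particle which is in one world only.
-/

open MeasureTheory Filter Topology Set
open scoped ENNReal NNReal

noncomputable section

namespace Vale.Agent.P119.M

open KU CTree

variable {Φ : E3 → ℝ} {ε : ℝ} {L : ℕ} {W W₁ W₂ : Set Src}

/-! ### Generalities on trees -/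

theorem CTree.depth_root_le (T : CTree) : T.root.2.2 ≤ T.depth := by
  induction T with
  | leaf z => exact le_rfl
  | node a b iha _ => exact (iha.trans (le_max_left a.depth b.depth)).trans (Nat.le_succ _)

theorem CTree.ok_root {T : CTree} (h : ok Φ ε T) : ok Φ ε (leaf T.root) := by
  induction T with
  | leaf z => exact h
  | node a b iha _ => exact iha h.1

theorem Spine.eq_of_card {S T : CTree} (h : Spine S T) (hc : T.card ≤ S.card) : S = T := by
  cases h with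
  | refl => rfl
  | left b h1 =>
    have := h1.card_le
    have h2 : 0 < b.card := b.card_pos
    simp only [CTree.card] at hc
    omega

theorem lives_birth_le (hΦ : IsPotential Φ) (hε : 0 < ε) {T : CTree} {t : ℝ}
    (h : lives Φ ε L W T t) : T.root.1 ≤ t :=
  (root_birth_le_sig hΦ hε h.ok).trans h.sig_le

theorem live_of_forall_lives {T : CTree} {t s₁ : ℝ} (h1 : s₁ < t)
    (h : ∀ s ∈ Ico s₁ t, lives Φ ε L W T s) : live Φ ε L W T t := by
  have h0 := h s₁ ⟨le_rfl, h1⟩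
  refine ⟨h0.sub, h0.ok, h0.depth, h0.sig_le.trans h1.le, fun T' r hr hh => ?_⟩
  exact (h (max r s₁) ⟨le_max_right _ _, max_lt hr h1⟩).nohit T' r (le_max_left _ _) hh

/-- A leaf is live at its birth. -/
theorem live_leaf {σ : Src} (h1 : σ ∈ W) (h2 : 0 ≤ σ.1) (h3 : σ.2.2 ≤ L) :
    live Φ ε L W (leaf σ) σ.1 :=
  ⟨singleton_subset_iff.2 h1, h2, h3, le_rfl, fun _ _ hs hh => absurd hh.1 (not_le.2 hs)⟩

/-! ### The status is a step function -/

theorem stat_eq_none_of_lt (hΦ : IsPotential Φ) (hε : 0 < ε) {a : Src} {s : ℝ} (h : s < a.1) :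
    stat Φ ε L W a s = none := by
  rw [stat_eq_none_iff]
  rintro T rfl h1
  exact absurd (lives_birth_le hΦ hε h1) (not_le.2 h)

theorem stat_eq_none_of_notMem {a : Src} {s : ℝ} (h : a ∉ W) : stat Φ ε L W a s = none := by
  rw [stat_eq_none_iff]
  rintro T rfl h1
  exact h (h1.sub T.root_mem_leaves)

theorem mem_of_stat_ne (hΦ : IsPotential Φ) (hε : 0 < ε) (hW : W.Finite) {a : Src} {s : ℝ}
    (h : stat Φ ε L W a s ≠ none) : a ∈ W ∧ 0 ≤ a.1 ∧ a.2.2 ≤ L ∧ a.1 ≤ s := by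
  obtain ⟨T, hT⟩ := Option.ne_none_iff_exists'.1 h
  obtain ⟨rfl, h1⟩ := (stat_eq_some_iff hΦ hε hW).1 hT
  exact ⟨h1.sub T.root_mem_leaves, CTree.ok_root h1.ok, T.depth_root_le.trans h1.depth,
    lives_birth_le hΦ hε h1⟩

/-- The status is constant on a short interval on the right. -/
theorem stat_eventually (hΦ : IsPotential Φ) (hε : 0 < ε) (hW : W.Finite) (a : Src) (s : ℝ) :
    ∀ᶠ r in 𝓝[>] s, stat Φ ε L W a r = stat Φ ε L W a s := by
  rcases h : stat Φ ε L W a s with _ | T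
  · rcases lt_or_ge s a.1 with h1 | h1
    · have h2 : ∀ᶠ r in 𝓝[>] s, r < a.1 := nhdsWithin_le_nhds (Iio_mem_nhds h1)
      exact h2.mono fun r hr => stat_eq_none_of_lt hΦ hε hr
    · filter_upwards [self_mem_nhdsWithin] with r hr
      exact stat_none_mono hΦ hε hW h (le_of_lt hr) h1
  · obtain ⟨u, hu, h1⟩ := stat_right hΦ hε hW h
    have h2 : ∀ᶠ r in 𝓝[>] s, r < u := nhdsWithin_le_nhds (Iio_mem_nhds hu)
    filter_upwards [self_mem_nhdsWithin, h2] with r hr hr'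
    exact h1 r ⟨le_of_lt hr, hr'⟩

/-- The finite set of the times at which a status may change. -/
def allTimes (Φ : E3 → ℝ) (ε : ℝ) (L : ℕ) (W : Set Src) : Set ℝ :=
  sig Φ ε '' {T : CTree | T.leaves ⊆ W ∧ T.depth ≤ L} ∪ times Φ ε L W

theorem allTimes_finite (hW : W.Finite) : (allTimes Φ ε L W).Finite :=
  ((finite_depth hW L).image _).union (times_finite hW)

/-- The status is constant between the times of `allTimes`. -/
theorem stat_const (hΦ : IsPotential Φ) (hε : 0 < ε) (hW : W.Finite) {a : Src} {r r' : ℝ}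
    (hr : r ≤ r') (h : ∀ u ∈ allTimes Φ ε L W, ¬(r < u ∧ u ≤ r')) :
    stat Φ ε L W a r' = stat Φ ε L W a r := by
  rcases hs : stat Φ ε L W a r with _ | T
  · rcases lt_or_ge r a.1 with h1 | h1
    · by_contra hcon
      obtain ⟨h2, h3, h4, h5⟩ := mem_of_stat_ne hΦ hε hW hcon
      exact h a.1 (Or.inl ⟨leaf a, ⟨singleton_subset_iff.2 h2, h4⟩, rfl⟩) ⟨h1, h5⟩
    · exact stat_none_mono hΦ hε hW hs hr h1
  · rw [stat_eq_some_iff hΦ hε hW] at hs ⊢
    refine ⟨hs.1, ?_⟩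
    by_contra hcon
    obtain ⟨u, hu, hu', h1, T', h2, h3⟩ := exists_last hΦ hε hW hs.2 hr hcon
    have h4 := fh_hit hΦ hε hs.2.ok h2
    have h5 := fh_le hΦ hε hs.2.ok h2
    refine h (fh Φ ε T T') (Or.inr ⟨(T, T'), ⟨⟨hs.2.sub, hs.2.depth⟩,
      ⟨(alive_pre h3).sub, (alive_pre h3).depth⟩⟩, rfl⟩) ⟨?_, h5.trans hu'⟩
    by_contra h6
    exact hs.2.nohit T' _ (not_lt.1 h6) h4 (alive_anti h3 h5 (hit_ext_le h4))

/-! ### Differences -/

/-- The particles with different statuses at some time up to `t`. -/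
def Diff (Φ : E3 → ℝ) (ε : ℝ) (L : ℕ) (W₁ W₂ : Set Src) (t : ℝ) : Set Src :=
  {a | ∃ s, s ≤ t ∧ stat Φ ε L W₁ a s ≠ stat Φ ε L W₂ a s}

theorem Diff_mono {t t' : ℝ} (h : t ≤ t') : Diff Φ ε L W₁ W₂ t ⊆ Diff Φ ε L W₁ W₂ t' := by
  rintro a ⟨s, h1, h2⟩
  exact ⟨s, h1.trans h, h2⟩

theorem Diff_comm (t : ℝ) : Diff Φ ε L W₁ W₂ t = Diff Φ ε L W₂ W₁ t := by
  ext a
  exact ⟨fun ⟨s, h1, h2⟩ => ⟨s, h1, h2.symm⟩, fun ⟨s, h1, h2⟩ => ⟨s, h1, h2.symm⟩⟩

theorem Diff_subset (t : ℝ) : Diff Φ ε L W₁ W₂ t ⊆ W₁ ∪ W₂ := by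
  rintro a ⟨s, -, h⟩
  by_contra hcon
  rw [mem_union, not_or] at hcon
  exact h ((stat_eq_none_of_notMem hcon.1).trans (stat_eq_none_of_notMem hcon.2).symm)

theorem Diff_triangle {W₃ : Set Src} (t : ℝ) :
    Diff Φ ε L W₁ W₃ t ⊆ Diff Φ ε L W₁ W₂ t ∪ Diff Φ ε L W₂ W₃ t := by
  rintro a ⟨s, h1, h2⟩
  by_cases h : stat Φ ε L W₁ a s = stat Φ ε L W₂ a s
  · exact Or.inr ⟨s, h1, fun h' => h2 (h.trans h')⟩
  · exact Or.inl ⟨s, h1, h⟩

/-- `s` is the first time at which the statuses of `a` differ. -/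
structure IsFirst (Φ : E3 → ℝ) (ε : ℝ) (L : ℕ) (W₁ W₂ : Set Src) (a : Src) (s : ℝ) : Prop where
  ne : stat Φ ε L W₁ a s ≠ stat Φ ε L W₂ a s
  eq : ∀ r, r < s → stat Φ ε L W₁ a r = stat Φ ε L W₂ a r

theorem IsFirst.symm {a : Src} {s : ℝ} (h : IsFirst Φ ε L W₁ W₂ a s) : IsFirst Φ ε L W₂ W₁ a s :=
  ⟨h.ne.symm, fun r hr => (h.eq r hr).symm⟩

theorem IsFirst.le {a : Src} {s r : ℝ} (h : IsFirst Φ ε L W₁ W₂ a s)
    (h' : stat Φ ε L W₁ a r ≠ stat Φ ε L W₂ a r) : s ≤ r :=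
  not_lt.1 fun hr => h' (h.eq r hr)

theorem IsFirst.unique {a : Src} {s s' : ℝ} (h : IsFirst Φ ε L W₁ W₂ a s)
    (h' : IsFirst Φ ε L W₁ W₂ a s') : s = s' :=
  le_antisymm (h.le h'.ne) (h'.le h.ne)

/-- **The first time of difference is attained.** -/
theorem first_diff (hΦ : IsPotential Φ) (hε : 0 < ε) (hW₁ : W₁.Finite) (hW₂ : W₂.Finite)
    {a : Src} {s : ℝ} (h : stat Φ ε L W₁ a s ≠ stat Φ ε L W₂ a s) :
    ∃ s₀, s₀ ≤ s ∧ IsFirst Φ ε L W₁ W₂ a s₀ := by
  set S : Set ℝ := {r | stat Φ ε L W₁ a r ≠ stat Φ ε L W₂ a r} with hS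
  have hb : BddBelow S := by
    refine ⟨a.1, fun r hr => ?_⟩
    by_contra hcon
    rw [not_le] at hcon
    exact hr ((stat_eq_none_of_lt hΦ hε hcon).trans (stat_eq_none_of_lt hΦ hε hcon).symm)
  have h1 : sInf S ∈ S := by
    refine sInf_mem_of_frequently ⟨s, h⟩ hb fun u hu => ?_
    intro hcon
    refine hu ?_
    filter_upwards [stat_eventually (L := L) hΦ hε hW₁ a u,
      stat_eventually (L := L) hΦ hε hW₂ a u] with r h2 h3 hr
    exact hr (h2.trans (hcon.trans h3.symm))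
  refine ⟨sInf S, csInf_le hb h, h1, fun r hr => ?_⟩
  by_contra hcon
  exact absurd (csInf_le hb hcon) (not_le.2 hr)

theorem mem_Diff_iff (hΦ : IsPotential Φ) (hε : 0 < ε) (hW₁ : W₁.Finite) (hW₂ : W₂.Finite)
    {a : Src} {t : ℝ} :
    a ∈ Diff Φ ε L W₁ W₂ t ↔ ∃ s₀, s₀ ≤ t ∧ IsFirst Φ ε L W₁ W₂ a s₀ := by
  constructor
  · rintro ⟨s, h1, h2⟩
    obtain ⟨s₀, h3, h4⟩ := first_diff hΦ hε hW₁ hW₂ h2
    exact ⟨s₀, h3.trans h1, h4⟩
  · rintro ⟨s₀, h1, h2⟩
    exact ⟨s₀, h1, h2.ne⟩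

theorem IsFirst.birth_le (hΦ : IsPotential Φ) (hε : 0 < ε) {a : Src} {s : ℝ}
    (h : IsFirst Φ ε L W₁ W₂ a s) : a.1 ≤ s := by
  by_contra hcon
  rw [not_le] at hcon
  exact h.ne ((stat_eq_none_of_lt hΦ hε hcon).trans (stat_eq_none_of_lt hΦ hε hcon).symm)

/-- **The common current tree just before the first time of difference.** -/
theorem IsFirst.exists_tree (hΦ : IsPotential Φ) (hε : 0 < ε) (hW₁ : W₁.Finite) (hW₂ : W₂.Finite)
    {a : Src} {s₀ : ℝ} (h : IsFirst Φ ε L W₁ W₂ a s₀) (ha₁ : a ∈ W₁) (ha₂ : a ∈ W₂) :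
    ∃ T : CTree, T.root = a ∧ live Φ ε L W₁ T s₀ ∧ live Φ ε L W₂ T s₀ ∧
      (sig Φ ε T < s₀ ∨ (T = leaf a ∧ s₀ = a.1)) := by
  have hb := h.birth_le hΦ hε
  rcases hb.eq_or_lt with h1 | h1
  · have h2 : 0 ≤ a.1 ∧ a.2.2 ≤ L := by
      by_cases h3 : stat Φ ε L W₁ a s₀ = none
      · have h4 : stat Φ ε L W₂ a s₀ ≠ none := fun h4 => h.ne (h3.trans h4.symm)
        have h5 := mem_of_stat_ne hΦ hε hW₂ h4
        exact ⟨h5.2.1, h5.2.2.1⟩
      · have h5 := mem_of_stat_ne hΦ hε hW₁ h3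
        exact ⟨h5.2.1, h5.2.2.1⟩
    refine ⟨leaf a, rfl, ?_, ?_, Or.inr ⟨rfl, h1.symm⟩⟩
    · rw [← h1]; exact live_leaf ha₁ h2.1 h2.2
    · rw [← h1]; exact live_leaf ha₂ h2.1 h2.2
  · -- the trees of `a` before `s₀`
    have hsome : ∀ r ∈ Ico a.1 s₀, ∃ T, stat Φ ε L W₁ a r = some T := by
      intro r hr
      rw [← Option.ne_none_iff_exists']
      intro hcon
      have hcon' : stat Φ ε L W₂ a r = none := (h.eq r hr.2).symm.trans hcon
      exact h.ne ((stat_none_mono hΦ hε hW₁ hcon hr.2.le hr.1).trans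
        (stat_none_mono hΦ hε hW₂ hcon' hr.2.le hr.1).symm)
    set B : Set CTree := {T | ∃ r ∈ Ico a.1 s₀, stat Φ ε L W₁ a r = some T} with hB
    have hBf : B.Finite := by
      refine (finite_depth hW₁ L).subset ?_
      rintro T ⟨r, -, hr⟩
      have := ((stat_eq_some_iff hΦ hε hW₁).1 hr).2
      exact ⟨this.sub, this.depth⟩
    have hBne : B.Nonempty := by
      obtain ⟨T, hT⟩ := hsome a.1 ⟨le_rfl, h1⟩
      exact ⟨T, a.1, ⟨le_rfl, h1⟩, hT⟩
    obtain ⟨T, ⟨s₁, hs₁, hT⟩, hmax⟩ := hBf.exists_maximalFor CTree.card _ hBne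
    have hall : ∀ r ∈ Ico s₁ s₀, stat Φ ε L W₁ a r = some T := by
      intro r hr
      obtain ⟨U, hU⟩ := hsome r ⟨hs₁.1.trans hr.1, hr.2⟩
      have h2 := stat_cur hΦ hε hW₁ hU hr.1 hs₁.1
      rw [hT, Option.some_inj] at h2
      have h3 : Spine T U := by
        rw [h2]
        exact cur_spine U s₁
      have h4 : T = U := h3.eq_of_card (by
        rcases le_total T.card U.card with h5 | h5
        · exact hmax ⟨r, ⟨hs₁.1.trans hr.1, hr.2⟩, hU⟩ h5
        · exact h5)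
      rw [h4]
      exact hU
    have h2 : ∀ r ∈ Ico s₁ s₀, stat Φ ε L W₂ a r = some T := fun r hr =>
      (h.eq r hr.2).symm.trans (hall r hr)
    have h3 := (stat_eq_some_iff hΦ hε hW₁).1 hT
    refine ⟨T, h3.1, ?_, ?_, Or.inl (h3.2.sig_le.trans_lt hs₁.2)⟩
    · exact live_of_forall_lives hs₁.2 fun r hr => ((stat_eq_some_iff hΦ hε hW₁).1 (hall r hr)).2
    · exact live_of_forall_lives hs₁.2 fun r hr => ((stat_eq_some_iff hΦ hε hW₂).1 (h2 r hr)).2

/-- At the time of its last collision a tree is hit as its two subtrees are. -/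
theorem hit_node_sig (hΦ : IsPotential Φ) (hε : 0 < ε) {a b T' : CTree} {s : ℝ}
    (hok : ok Φ ε (node a b)) (hs : s ≤ sig Φ ε (node a b)) (h : hit Φ ε (node a b) T' s) :
    (hit Φ ε a T' s ∧ ¬(T' = b ∧ s = sig Φ ε (node a b))) ∨
      (hit Φ ε b T' s ∧ ¬(T' = a ∧ s = sig Φ ε (node a b))) := by
  rcases h with ⟨-, h⟩ | ⟨h1, h2, h3, h4⟩
  · exact h
  · have hs' : s = sig Φ ε (node a b) := le_antisymm hs h1
    have hp := pairLine_before (Φ := Φ) hΦ hε (q := (ln Φ ε a, ln Φ ε b)) (t := s)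
      hok.2.2.2.1.1 hok.2.2.2.1.2.le hs
    have hda : Disjoint a.leaves T'.leaves := h3.mono_left (fun _ hx => Or.inl hx)
    have hdb : Disjoint b.leaves T'.leaves := h3.mono_left (fun _ hx => Or.inr hx)
    have hea : ext Φ ε a ≤ s := by rw [hs']; exact hok.2.2.2.2.2.1.le
    have heb : ext Φ ε b ≤ s := by rw [hs']; exact hok.2.2.2.2.2.2.le
    rw [hp] at h4
    rcases h4 with h4 | ⟨-, h4⟩
    · refine Or.inl ⟨(hit_after hΦ hε hok.1 hea).2 ⟨h2, hda, h4⟩, fun hcon => ?_⟩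
      rw [hcon.1] at hdb
      exact b.not_disjoint_self hdb
    · refine Or.inr ⟨(hit_after hΦ hε hok.2.1 heb).2 ⟨h2, hdb, h4⟩, fun hcon => ?_⟩
      rw [hcon.1] at hda
      exact a.not_disjoint_self hda

/-- The possible statuses of the root particle at a time at which `T` is live and which is after the
beginning of the last collision of `T`. -/
theorem stat_cases (hΦ : IsPotential Φ) (hε : 0 < ε) (hW : W.Finite) {T : CTree} {s : ℝ}
    (hT : live Φ ε L W T s) (hs : sig Φ ε T < s ∨ ∃ σ, T = leaf σ) :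
    (stat Φ ε L W T.root s = some T ∧ ∀ y, hit Φ ε T y s → ¬alive Φ ε L W y s) ∨
    (∃ y, stat Φ ε L W T.root s = some (node T y) ∧ sig Φ ε (node T y) = s ∧ hit Φ ε T y s ∧
      alive Φ ε L W y s ∧ lives Φ ε L W (node T y) s) ∨
    (stat Φ ε L W T.root s = none ∧ ∃ y, hit Φ ε T y s ∧ alive Φ ε L W y s) := by
  by_cases hh : ∀ y, hit Φ ε T y s → ¬alive Φ ε L W y s
  · left
    refine ⟨?_, hh⟩
    rw [stat_eq_some_iff hΦ hε hW]
    refine ⟨rfl, hT.sub, hT.ok, hT.depth, hT.sig_le, fun y r hr hy => ?_⟩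
    rcases hr.eq_or_lt with rfl | hr
    · exact hh y hy
    · exact hT.nohit y r hr hy
  · right
    push Not at hh
    rcases hst : stat Φ ε L W T.root s with _ | U
    · exact Or.inr ⟨rfl, hh⟩
    · left
      rw [stat_eq_some_iff hΦ hε hW] at hst
      obtain ⟨hr, hU⟩ := hst
      have hne : U ≠ T := by
        rintro rfl
        obtain ⟨y, h1, h2⟩ := hh
        exact hU.nohit y s le_rfl h1 h2
      cases U with
      | leaf z =>
        exfalso
        change z = T.root at hr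
        rcases hs with hs | ⟨σ, rfl⟩
        · have h1 : lives Φ ε L W T (sig Φ ε T) := hT.lives_of_lt hs le_rfl
          have h2 : z.1 ≤ sig Φ ε T := by
            rw [hr]; exact root_birth_le_sig hΦ hε hT.ok
          have h3 : lives Φ ε L W (leaf z) (sig Φ ε T) := hU.anti hs.le h2
          exact hne (lives_unique hΦ hε hW h3 h1 hr)
        · exact hne (by rw [hr]; rfl)
      | node x y =>
        have hx := live_left hΦ hε hW hU.live
        have hy := live_right hΦ hε hW hU.live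
        have hx' := (alive_iff_live hΦ hε hW).1 hx
        have hok := hU.ok
        have hxs : sig Φ ε x < sig Φ ε (node x y) :=
          (sig_le_ext hΦ hε hok.1).trans_lt hok.2.2.2.2.2.1
        have hTs : sig Φ ε T < s := by
          rcases hs with hs | ⟨σ, rfl⟩
          · exact hs
          · change σ.1 < s
            have h1 : σ = x.root := hr.symm
            rw [h1]
            exact ((root_birth_le_sig hΦ hε hok.1).trans_lt hxs).trans_le hU.sig_le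
        have hsig : sig Φ ε (node x y) = s := by
          refine le_antisymm hU.sig_le (not_lt.1 fun hlt => ?_)
          have h1 : lives Φ ε L W T (max (sig Φ ε T) (sig Φ ε (node x y))) :=
            hT.lives_of_lt (max_lt hTs hlt) (le_max_left _ _)
          have h2 : lives Φ ε L W (node x y) (max (sig Φ ε T) (sig Φ ε (node x y))) :=
            hU.anti (max_lt hTs hlt).le (le_max_right _ _)
          exact hne (lives_unique hΦ hε hW h2 h1 hr)
        have hxT : x = T := by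
          have h0 : max (sig Φ ε T) (sig Φ ε x) < s := max_lt hTs (by rw [← hsig]; exact hxs)
          have h1 : lives Φ ε L W T (max (sig Φ ε T) (sig Φ ε x)) :=
            hT.lives_of_lt h0 (le_max_left _ _)
          have h2 : lives Φ ε L W x (max (sig Φ ε T) (sig Φ ε x)) :=
            hx'.1.lives_of_lt (by rw [hsig]; exact h0) (le_max_right _ _)
          exact lives_unique hΦ hε hW h2 h1 hr
        subst hxT
        refine ⟨y, rfl, hsig, ?_, ?_, hU⟩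
        · rw [← hsig]; exact hit_sig hΦ hε hok
        · rw [← hsig]; exact hy

/-- The tree `T` is alive at the time `s` in exactly one of the two worlds. -/
def XAlive (Φ : E3 → ℝ) (ε : ℝ) (L : ℕ) (W₁ W₂ : Set Src) (T : CTree) (s : ℝ) : Prop :=
  (alive Φ ε L W₁ T s ∧ ¬alive Φ ε L W₂ T s) ∨ (alive Φ ε L W₂ T s ∧ ¬alive Φ ε L W₁ T s)

theorem XAlive.symm {T : CTree} {s : ℝ} (h : XAlive Φ ε L W₁ W₂ T s) : XAlive Φ ε L W₂ W₁ T s :=
  Or.symm h

theorem xAlive_comm {T : CTree} {s : ℝ} : XAlive Φ ε L W₁ W₂ T s ↔ XAlive Φ ε L W₂ W₁ T s :=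
  ⟨XAlive.symm, XAlive.symm⟩

/-- `T` is the current tree of a particle just before `s`, in both worlds; `S` is `T` or a tree which
meets `T` at time `s` (`node T S` begins at `s`), alive in both worlds, and `S` is hit at time `s` by
`T'`, which is alive in exactly one world. -/
structure Link (Φ : E3 → ℝ) (ε : ℝ) (L : ℕ) (W₁ W₂ : Set Src) (T S T' : CTree) (s : ℝ) : Prop where
  live₁ : live Φ ε L W₁ T s
  live₂ : live Φ ε L W₂ T s
  sig : T.sig Φ ε < s ∨ (T = leaf T.root ∧ s = T.root.1)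
  cases : S = T ∨ (ok Φ ε (node T S) ∧ CTree.sig Φ ε (node T S) = s ∧ CTree.hit Φ ε T S s ∧
    alive Φ ε L W₁ S s ∧ alive Φ ε L W₂ S s)
  hit : CTree.hit Φ ε S T' s
  xalive : XAlive Φ ε L W₁ W₂ T' s

theorem Link.symm {T S T' : CTree} {s : ℝ} (h : Link Φ ε L W₁ W₂ T S T' s) :
    Link Φ ε L W₂ W₁ T S T' s := by
  refine ⟨h.live₂, h.live₁, h.sig, ?_, h.hit, h.xalive.symm⟩
  rcases h.cases with h1 | ⟨h1, h2, h3, h4, h5⟩
  · exact Or.inl h1
  · exact Or.inr ⟨h1, h2, h3, h5, h4⟩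

/-- **The step of the propagation of differences.** -/
theorem loc_step (hΦ : IsPotential Φ) (hε : 0 < ε) (hW₁ : W₁.Finite) (hW₂ : W₂.Finite)
    {a : Src} {s₀ : ℝ} (h : IsFirst Φ ε L W₁ W₂ a s₀) (ha₁ : a ∈ W₁) (ha₂ : a ∈ W₂) :
    ∃ T S T' : CTree, T.root = a ∧ Link Φ ε L W₁ W₂ T S T' s₀ := by
  obtain ⟨T, hr, h1, h2, h3⟩ := h.exists_tree hΦ hε hW₁ hW₂ ha₁ ha₂
  subst hr
  have h3' : sig Φ ε T < s₀ ∨ ∃ σ, T = leaf σ := h3.imp_right fun h => ⟨_, h.1⟩
  by_contra hcon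
  -- the hitters of `T` agree
  have hH : ∀ y, hit Φ ε T y s₀ → (alive Φ ε L W₁ y s₀ ↔ alive Φ ε L W₂ y s₀) := by
    intro y hy
    by_contra hcon'
    refine hcon ⟨T, T, y, rfl, h1, h2, h3, Or.inl rfl, hy, ?_⟩
    unfold XAlive
    tauto
  -- the hitters of the hitters agree
  have hH' : ∀ y z, ok Φ ε (node T y) → sig Φ ε (node T y) = s₀ → hit Φ ε T y s₀ →
      alive Φ ε L W₁ y s₀ → hit Φ ε y z s₀ →
      (alive Φ ε L W₁ z s₀ ↔ alive Φ ε L W₂ z s₀) := by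
    intro y z hok hsy hy hy' hz
    by_contra hcon'
    refine hcon ⟨T, y, z, rfl, h1, h2, h3, Or.inr ⟨hok, hsy, hy, hy', (hH y hy).1 hy'⟩, hz, ?_⟩
    unfold XAlive
    tauto
  -- a common node
  have key : ∀ V₁ V₂ : Set Src, V₁.Finite → V₂.Finite → live Φ ε L V₂ T s₀ →
      (∀ y, hit Φ ε T y s₀ → (alive Φ ε L V₁ y s₀ ↔ alive Φ ε L V₂ y s₀)) →
      (∀ y z, ok Φ ε (node T y) → sig Φ ε (node T y) = s₀ → hit Φ ε T y s₀ →
        alive Φ ε L V₁ y s₀ → hit Φ ε y z s₀ →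
        (alive Φ ε L V₁ z s₀ ↔ alive Φ ε L V₂ z s₀)) →
      ∀ y, sig Φ ε (node T y) = s₀ → hit Φ ε T y s₀ → alive Φ ε L V₁ y s₀ →
        lives Φ ε L V₁ (node T y) s₀ → stat Φ ε L V₂ T.root s₀ = some (node T y) := by
    intro V₁ V₂ hV₁ hV₂ hl hG hG' y hsy hy hy' hn
    rw [stat_eq_some_iff hΦ hε hV₂]
    have hy2 : alive Φ ε L V₂ y s₀ := (hG y hy).1 hy'
    refine ⟨rfl, union_subset hl.sub (alive_pre hy2).sub, hn.ok, hn.depth, hn.sig_le,
      fun z r hr hz hz' => ?_⟩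
    have hy3 := (alive_iff hΦ hε hV₂).1 hy2
    rcases hit_node_sig hΦ hε hn.ok (hr.trans hsy.ge) hz with ⟨h4, h5⟩ | ⟨h4, h5⟩
    · rcases hr.eq_or_lt with rfl | hr'
      · exact hn.nohit z r le_rfl hz ((hG z h4).2 hz')
      · exact hl.nohit z r hr' h4 hz'
    · rcases hr.eq_or_lt with rfl | hr'
      · exact hn.nohit z r le_rfl hz ((hG' y z hn.ok hsy hy hy' h4).2 hz')
      · exact hy3.2 z r hr' h4 hz'
  have hGs : ∀ y, hit Φ ε T y s₀ → (alive Φ ε L W₂ y s₀ ↔ alive Φ ε L W₁ y s₀) :=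
    fun y hy => (hH y hy).symm
  have hGs' : ∀ y z, ok Φ ε (node T y) → sig Φ ε (node T y) = s₀ → hit Φ ε T y s₀ →
      alive Φ ε L W₂ y s₀ → hit Φ ε y z s₀ →
      (alive Φ ε L W₂ z s₀ ↔ alive Φ ε L W₁ z s₀) :=
    fun y z hok hsy hy hy' hz => (hH' y z hok hsy hy ((hH y hy).2 hy') hz).symm
  rcases stat_cases hΦ hε hW₁ h1 h3' with ⟨h4, h5⟩ | ⟨y, h4, h5, h6, h7, h8⟩ | ⟨h4, y, h5, h6⟩
  · -- no hitter in `W₁`
    rcases stat_cases hΦ hε hW₂ h2 h3' with ⟨k4, -⟩ | ⟨y, -, -, k6, k7, -⟩ | ⟨-, y, k5, k6⟩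
    · exact h.ne (h4.trans k4.symm)
    · exact h5 y k6 ((hH y k6).2 k7)
    · exact h5 y k5 ((hH y k5).2 k6)
  · exact h.ne (h4.trans (key W₁ W₂ hW₁ hW₂ h2 hH hH' y h5 h6 h7 h8).symm)
  · rcases stat_cases hΦ hε hW₂ h2 h3' with ⟨-, k5⟩ | ⟨z, k4, k5, k6, k7, k8⟩ | ⟨k4, -⟩
    · exact k5 y h5 ((hH y h5).1 h6)
    · exact h.ne ((key W₂ W₁ hW₂ hW₁ h1 hGs hGs' z k5 k6 k7 k8).trans k4.symm)
    · exact h.ne (h4.trans k4.symm)

/-- A tree which is alive in one world only: its root is in one world only, or has been different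
before. -/
theorem alive_diff (hΦ : IsPotential Φ) (hε : 0 < ε) (hW₁ : W₁.Finite) (hW₂ : W₂.Finite)
    {T : CTree} {s : ℝ} (h1 : alive Φ ε L W₁ T s) (h2 : ¬alive Φ ε L W₂ T s) :
    T.root ∉ W₂ ∨ ∃ r, r < s ∧ stat Φ ε L W₁ T.root r ≠ stat Φ ε L W₂ T.root r := by
  by_contra hcon
  push Not at hcon
  obtain ⟨h3, h4⟩ := hcon
  have h1' := (alive_iff_live hΦ hε hW₁).1 h1
  refine h2 ((alive_iff_live hΦ hε hW₂).2 ⟨?_, h1'.2⟩)
  have key : sig Φ ε T < s → live Φ ε L W₂ T s := fun hs => by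
    refine live_of_forall_lives hs fun r hr => ?_
    have h5 : stat Φ ε L W₁ T.root r = some T :=
      (stat_eq_some_iff hΦ hε hW₁).2 ⟨rfl, h1'.1.lives_of_lt hr.2 hr.1⟩
    rw [h4 r hr.2, stat_eq_some_iff hΦ hε hW₂] at h5
    exact h5.2
  rcases h1'.1.sig_le.lt_or_eq with hs | hs
  · exact key hs
  · cases T with
    | leaf σ =>
      change σ.1 = s at hs
      rw [← hs]
      exact live_leaf h3 h1'.1.ok h1'.1.depth
    | node a b =>
      exact absurd ((sig_lt_ext hΦ hε h1'.1.ok).trans_le h1'.2) (by rw [hs]; exact lt_irrefl s)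

theorem XAlive.diff (hΦ : IsPotential Φ) (hε : 0 < ε) (hW₁ : W₁.Finite) (hW₂ : W₂.Finite)
    {T : CTree} {s : ℝ} (h : XAlive Φ ε L W₁ W₂ T s) :
    (T.root ∉ W₁ ∨ T.root ∉ W₂) ∨
      ∃ r, r < s ∧ stat Φ ε L W₁ T.root r ≠ stat Φ ε L W₂ T.root r := by
  rcases h with ⟨h1, h2⟩ | ⟨h1, h2⟩
  · rcases alive_diff hΦ hε hW₁ hW₂ h1 h2 with h3 | h3
    · exact Or.inl (Or.inr h3)
    · exact Or.inr h3
  · rcases alive_diff hΦ hε hW₂ hW₁ h1 h2 with h3 | ⟨r, h3, h4⟩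
    · exact Or.inl (Or.inl h3)
    · exact Or.inr ⟨r, h3, h4.symm⟩

/-- Statuses which agree before `s` give the same alive trees at `s`. -/
theorem alive_congr (hΦ : IsPotential Φ) (hε : 0 < ε) (hW₁ : W₁.Finite) (hW₂ : W₂.Finite)
    {T : CTree} {s : ℝ} (h : T.root ∈ W₁ ↔ T.root ∈ W₂)
    (h' : ∀ r, r < s → stat Φ ε L W₁ T.root r = stat Φ ε L W₂ T.root r) :
    alive Φ ε L W₁ T s ↔ alive Φ ε L W₂ T s := by
  constructor
  · intro h1
    by_contra h2
    rcases alive_diff hΦ hε hW₁ hW₂ h1 h2 with h3 | ⟨r, h3, h4⟩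
    · exact h3 (h.1 ((alive_pre h1).sub T.root_mem_leaves))
    · exact h4 (h' r h3)
  · intro h1
    by_contra h2
    rcases alive_diff hΦ hε hW₂ hW₁ h1 h2 with h3 | ⟨r, h3, h4⟩
    · exact h3 (h.2 ((alive_pre h1).sub T.root_mem_leaves))
    · exact h4 (h' r h3).symm

/-! ### Transfer of survival -/

theorem live_transfer {T : CTree} {t : ℝ} (h : live Φ ε L W₁ T t) (hT : T.leaves ⊆ W₂)
    (h' : ∀ T' s, s < t → hit Φ ε T T' s → alive Φ ε L W₂ T' s → alive Φ ε L W₁ T' s) :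
    live Φ ε L W₂ T t :=
  ⟨hT, h.ok, h.depth, h.sig_le, fun T' s hs hh ha => h.nohit T' s hs hh (h' T' s hs hh ha)⟩

theorem lives_transfer {T : CTree} {t : ℝ} (h : lives Φ ε L W₁ T t) (hT : T.leaves ⊆ W₂)
    (h' : ∀ T' s, s ≤ t → hit Φ ε T T' s → alive Φ ε L W₂ T' s → alive Φ ε L W₁ T' s) :
    lives Φ ε L W₂ T t :=
  ⟨hT, h.ok, h.depth, h.sig_le, fun T' s hs hh ha => h.nohit T' s hs hh (h' T' s hs hh ha)⟩

theorem alive_transfer (hΦ : IsPotential Φ) (hε : 0 < ε) (hW₁ : W₁.Finite) (hW₂ : W₂.Finite)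
    {T : CTree} {t : ℝ} (h : alive Φ ε L W₁ T t) (hT : T.leaves ⊆ W₂)
    (h' : ∀ T' s, s < t → hit Φ ε T T' s → alive Φ ε L W₂ T' s → alive Φ ε L W₁ T' s) :
    alive Φ ε L W₂ T t := by
  rw [alive_iff_live hΦ hε hW₁] at h
  exact (alive_iff_live hΦ hε hW₂).2 ⟨live_transfer h.1 hT h', h.2⟩

/-! ### The chain -/

/-- The current tree before the first difference is an earlier history of every later tree. -/
theorem Link.spine (hΦ : IsPotential Φ) (hε : 0 < ε) (hW₁ : W₁.Finite) (hW₂ : W₂.Finite)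
    {T S T' U : CTree} {r s : ℝ} (h : Link Φ ε L W₁ W₂ T S T' r) (hrs : r ≤ s)
    (hU : XAlive Φ ε L W₁ W₂ U s) (hr : U.root = T.root) : Spine T U := by
  have key : ∀ V : Set Src, V.Finite → live Φ ε L V T r → alive Φ ε L V U s → Spine T U := by
    intro V hV h1 h2
    rcases h.sig with h3 | ⟨h3, -⟩
    · have h4 := ((alive_iff_live hΦ hε hV).1 h2).1
      have h5 : U.root.1 ≤ CTree.sig Φ ε T := by
        rw [hr]; exact root_birth_le_sig hΦ hε h1.ok
      have h6 := live_cur hΦ hε hV h4 (h3.trans_le hrs) h5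
      have h7 : lives Φ ε L V T (CTree.sig Φ ε T) := h1.lives_of_lt h3 le_rfl
      have h8 := lives_unique hΦ hε hV h6 h7 ((cur_root U _).trans hr)
      rw [← h8]
      exact cur_spine U _
    · rw [h3, ← hr]
      exact Spine.leaf U
  rcases hU with ⟨hU, -⟩ | ⟨hU, -⟩
  · exact key W₁ hW₁ h.live₁ hU
  · exact key W₂ hW₂ h.live₂ hU

/-- `T` is alive at time `s` in exactly one of the two worlds, and this goes back, through a chain of
hits, to a particle which is in one world only. -/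
inductive Infl (Φ : E3 → ℝ) (ε : ℝ) (L : ℕ) (W₁ W₂ : Set Src) : CTree → ℝ → Prop
  | base {T : CTree} {s : ℝ} (h : XAlive Φ ε L W₁ W₂ T s) (hr : T.root ∉ W₁ ∨ T.root ∉ W₂) :
      Infl Φ ε L W₁ W₂ T s
  | step {T' T S U : CTree} {r s : ℝ} (h : Infl Φ ε L W₁ W₂ T' r) (hl : Link Φ ε L W₁ W₂ T S T' r)
      (hs : Spine T U) (hrs : r < s) (hu : XAlive Φ ε L W₁ W₂ U s) : Infl Φ ε L W₁ W₂ U s

theorem Infl.xAlive {T : CTree} {s : ℝ} (h : Infl Φ ε L W₁ W₂ T s) : XAlive Φ ε L W₁ W₂ T s := by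
  cases h with
  | base h _ => exact h
  | step _ _ _ _ hu => exact hu

/-- **Every difference has a chain.** -/
theorem infl_of_xAlive (hΦ : IsPotential Φ) (hε : 0 < ε) (hW₁ : W₁.Finite) (hW₂ : W₂.Finite)
    {T : CTree} {s : ℝ} (h : XAlive Φ ε L W₁ W₂ T s) : Infl Φ ε L W₁ W₂ T s := by
  -- the first times of difference are finitely many
  set F : Set ℝ := ⋃ a ∈ W₁ ∪ W₂, {s | IsFirst Φ ε L W₁ W₂ a s} with hF
  have hFf : F.Finite := (hW₁.union hW₂).biUnion fun a _ =>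
    Set.Subsingleton.finite fun _ h1 _ h2 => h1.unique h2
  have key : ∀ (n : ℕ) (T : CTree) (s : ℝ), (F ∩ Iio s).ncard = n → XAlive Φ ε L W₁ W₂ T s →
      Infl Φ ε L W₁ W₂ T s := by
    intro n
    induction n using Nat.strong_induction_on with
    | _ n ih =>
      intro T s hn h
      by_cases hr : T.root ∉ W₁ ∨ T.root ∉ W₂
      · exact Infl.base h hr
      · rcases h.diff hΦ hε hW₁ hW₂ with h1 | ⟨r, h1, h2⟩
        · exact absurd h1 hr
        · rw [not_or, not_not, not_not] at hr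
          obtain ⟨s₀, h3, h4⟩ := first_diff hΦ hε hW₁ hW₂ h2
          obtain ⟨T₀, S, T', h5, h6⟩ := loc_step hΦ hε hW₁ hW₂ h4 hr.1 hr.2
          have h7 : s₀ < s := h3.trans_lt h1
          have h8 : s₀ ∈ F := mem_biUnion (Or.inl hr.1) h4
          have h9 : (F ∩ Iio s₀).ncard < n := by
            rw [← hn]
            refine ncard_lt_ncard ⟨fun x hx => ⟨hx.1, lt_trans hx.2 h7⟩, fun hcon => ?_⟩
              (hFf.inter_of_left _)
            exact absurd (hcon ⟨h8, h7⟩).2 (lt_irrefl s₀)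
          exact Infl.step (ih _ h9 T' s₀ rfl h6.xalive) h6
            (h6.spine hΦ hε hW₁ hW₂ h7.le h h5.symm) h7 h
  exact key _ T s rfl h

/-- **Every particle with different statuses has a chain.** -/
theorem infl_of_mem_Diff (hΦ : IsPotential Φ) (hε : 0 < ε) (hW₁ : W₁.Finite) (hW₂ : W₂.Finite)
    {a : Src} {t : ℝ} (ha₁ : a ∈ W₁) (ha₂ : a ∈ W₂) (h : a ∈ Diff Φ ε L W₁ W₂ t) :
    ∃ s, s ≤ t ∧ IsFirst Φ ε L W₁ W₂ a s ∧ ∃ T S T', T.root = a ∧ Link Φ ε L W₁ W₂ T S T' s ∧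
      Infl Φ ε L W₁ W₂ T' s := by
  obtain ⟨s, h1, h2⟩ := (mem_Diff_iff hΦ hε hW₁ hW₂).1 h
  obtain ⟨T, S, T', h3, h4⟩ := loc_step hΦ hε hW₁ hW₂ h2 ha₁ ha₂
  exact ⟨s, h1, h2, T, S, T', h3, h4, infl_of_xAlive hΦ hε hW₁ hW₂ h4.xalive⟩

end Vale.Agent.P119.M
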