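import Vale.Agent.P119.M.Sup
import Vale.Agent.P119.RB.Status
import Vale.Agent.P119.FB.Cube

/-!
# P119: the M-world, superposition for the full status (`helper472`)

`NIB W K t`: no contact of a particle altered by `i` and a particle altered by `j ≠ i`, and no
contact of an altered and an unaltered particle which survives the contact (at a time `s ≤ t` at
which the one is altered and the other still is not).  Together with `NI` this gives: the full status `RB.sta` of every particle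
depends on one index only (`sta_dep`); `cube_of_dep` turns this into `FB.Sys.Cube`.
-/

open MeasureTheory Filter Topology Set
open scoped ENNReal NNReal

noncomputable section

namespace Vale.Agent.P119.M

open KU CTree RB

variable {Φ : E3 → ℝ} {ε : ℝ} {L : ℕ} {ι : Type*} [DecidableEq ι] {W : Finset ι → Set Src}
  {K : Finset ι}

/-- The particle `a` has been altered by `i` up to time `t`. -/
def altd (Φ : E3 → ℝ) (ε : ℝ) (L : ℕ) (W : Finset ι → Set Src) (i : ι) (a : Src) (t : ℝ) : Prop :=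
  ¬((a ∈ W ∅ ↔ a ∈ W {i}) ∧ ∀ r ≤ t, stat Φ ε L (W ∅) a r = stat Φ ε L (W {i}) a r)

/-- No contact between lines altered by different indices, and no contact of an altered particle with
an unaltered one which is still alive, up to time `t`. -/
structure NIB (Φ : E3 → ℝ) (ε : ℝ) (L : ℕ) (W : Finset ι → Set Src) (K : Finset ι) (t : ℝ) :
    Prop where
  nocon : ∀ i ∈ K, ∀ j ∈ K, i ≠ j → ∀ s ≤ t, ∀ a b, a ≠ b → altd Φ ε L W i a s →
    altd Φ ε L W j b s → ∀ I ⊆ {i}, ∀ J ⊆ {j}, ∀ T T' : CTree, T.root = a → T'.root = b →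
    live Φ ε L (W I) T s → live Φ ε L (W J) T' s → ¬Ctc ε (st Φ ε T s) (st Φ ε T' s)
  nobad : ∀ i ∈ K, ∀ s ≤ t, ∀ a b, ¬altd Φ ε L W i a s → altd Φ ε L W i b s →
    ∀ I ⊆ {i}, stat Φ ε L (W I) a s ≠ none → ¬mcon Φ ε L (W I) s a b

/-- The two worlds of the particle `a` are the same up to `t`. -/
def Same (Φ : E3 → ℝ) (ε : ℝ) (L : ℕ) (W₁ W₂ : Set Src) (a : Src) (t : ℝ) : Prop :=
  (a ∈ W₁ ↔ a ∈ W₂) ∧ ∀ r ≤ t, stat Φ ε L W₁ a r = stat Φ ε L W₂ a r

theorem Same.symm {W₁ W₂ : Set Src} {a : Src} {t : ℝ} (h : Same Φ ε L W₁ W₂ a t) :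
    Same Φ ε L W₂ W₁ a t := ⟨h.1.symm, fun r hr => (h.2 r hr).symm⟩

theorem Same.mono {W₁ W₂ : Set Src} {a : Src} {s t : ℝ} (h : Same Φ ε L W₁ W₂ a t)
    (hst : s ≤ t) : Same Φ ε L W₁ W₂ a s := ⟨h.1, fun r hr => h.2 r (hr.trans hst)⟩

theorem Same.mcon (hΦ : IsPotential Φ) (hε : 0 < ε) {W₁ W₂ : Set Src} (h₁ : W₁.Finite)
    (h₂ : W₂.Finite) {a b : Src} {t : ℝ} (ha : Same Φ ε L W₁ W₂ a t) (hb : Same Φ ε L W₁ W₂ b t)
    (h : mcon Φ ε L W₁ t a b) : mcon Φ ε L W₂ t a b :=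
  mcon_congr hΦ hε h₁ h₂ ha.1.1 hb.1.1 (fun r hr => ha.2 r hr.le) (fun r hr => hb.2 r hr.le) h

theorem Same.part {W₁ W₂ : Set Src} {a b : Src} {t : ℝ} (ha : Same Φ ε L W₁ W₂ a t)
    (hb : Same Φ ε L W₁ W₂ b t) (h : part Φ ε L W₁ t a b) : part Φ ε L W₂ t a b := by
  obtain ⟨T, T', h1, h2, h3⟩ := h
  rw [ha.2 t le_rfl] at h1
  rw [hb.2 t le_rfl] at h2
  exact ⟨T, T', h1, h2, h3⟩

/-- The dependence of `label_dep`. -/
def LabelDep (Φ : E3 → ℝ) (ε : ℝ) (L : ℕ) (W : Finset ι → Set Src) (K : Finset ι) (t : ℝ)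
    (a : Src) (i : ι) : Prop :=
  ∀ J J', J ⊆ K → J' ⊆ K → (i ∈ J ↔ i ∈ J') → Same Φ ε L (W J) (W J') a t

theorem LabelDep.eq_of_altd {t s : ℝ} {a : Src} {i j : ι} (h : LabelDep Φ ε L W K t a i)
    (hs : s ≤ t) (hj : j ∈ K) (ha : altd Φ ε L W j a s) : j = i := by
  by_contra hne
  refine ha ((h ∅ {j} (Finset.empty_subset _) (Finset.singleton_subset_iff.2 hj) ?_).mono hs)
  rw [Finset.mem_singleton]
  exact ⟨fun h => absurd h (Finset.notMem_empty _), fun h => absurd h.symm hne⟩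

/-- Either the particle is altered by its index or it is the same in all the worlds. -/
theorem LabelDep.altd_or {t s : ℝ} {a : Src} {i : ι} (h : LabelDep Φ ε L W K t a i)
    (hs : s ≤ t) : (i ∈ K ∧ altd Φ ε L W i a s) ∨
      ∀ J J', J ⊆ K → J' ⊆ K → Same Φ ε L (W J) (W J') a s := by
  by_cases hi : i ∈ K
  · by_cases ha : altd Φ ε L W i a s
    · exact Or.inl ⟨hi, ha⟩
    · right
      have h0 : Same Φ ε L (W ∅) (W {i}) a s := not_not.1 ha
      have h1 : ∀ J, J ⊆ K → Same Φ ε L (W ∅) (W J) a s := by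
        intro J hJ
        by_cases hiJ : i ∈ J
        · have h2 := (h {i} J (Finset.singleton_subset_iff.2 hi) hJ (by simp [hiJ])).mono hs
          exact ⟨h0.1.trans h2.1, fun r hr => (h0.2 r hr).trans (h2.2 r hr)⟩
        · exact (h ∅ J (Finset.empty_subset _) hJ (by simp [hiJ])).mono hs
      intro J J' hJ hJ'
      have h2 := (h1 J hJ).symm
      have h3 := h1 J' hJ'
      exact ⟨h2.1.trans h3.1, fun r hr => (h2.2 r hr).trans (h3.2 r hr)⟩
  · right
    intro J J' hJ hJ'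
    refine (h J J' hJ hJ' ?_).mono hs
    exact ⟨fun h => absurd (hJ h) hi, fun h => absurd (hJ' h) hi⟩

/-- A world among `W ∅`, `W {i}` in which a particle of index `i` is the same as in `W J`. -/
theorem LabelDep.exists_small {t : ℝ} {a : Src} {i : ι} (h : LabelDep Φ ε L W K t a i)
    (hi : i ∈ K) {J : Finset ι} (hJ : J ⊆ K) :
    ∃ I : Finset ι, I ⊆ {i} ∧ I ⊆ K ∧ (i ∈ J ↔ i ∈ I) ∧ Same Φ ε L (W J) (W I) a t := by
  have h1 : ({i} : Finset ι) ⊆ K := Finset.singleton_subset_iff.2 hi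
  by_cases hiJ : i ∈ J
  · exact ⟨{i}, Finset.Subset.refl _, h1, by simp [hiJ], h J {i} hJ h1 (by simp [hiJ])⟩
  · exact ⟨∅, Finset.empty_subset _, Finset.empty_subset _, by simp [hiJ],
      h J ∅ hJ (Finset.empty_subset _) (by simp [hiJ])⟩

/-- **Superposition for the full status.** -/
theorem sta_dep (hΦ : IsPotential Φ) (hε : 0 < ε) (hC : CubeW W K) {t₀ : ℝ}
    (hNI : NI Φ ε L W K t₀) (hNB : NIB Φ ε L W K t₀) (a : Src) :
    ∃ i, ∀ J J', J ⊆ K → J' ⊆ K → (i ∈ J ↔ i ∈ J') →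
      ∀ s ≤ t₀, sta Φ ε L (W J) a s = sta Φ ε L (W J') a s := by
  have hL : ∀ c, ∃ i, LabelDep Φ ε L W K t₀ c i := label_dep hΦ hε hC hNI
  obtain ⟨i, hi⟩ := hL a
  refine ⟨i, fun J J' hJ hJ' hij => ?_⟩
  -- contacts which are not with the partner
  have key : ∀ J J', J ⊆ K → J' ⊆ K → (i ∈ J ↔ i ∈ J') → ∀ s ≤ t₀, ∀ c,
      stat Φ ε L (W J) a s ≠ none → mcon Φ ε L (W J) s a c → ¬part Φ ε L (W J) s a c →
      mcon Φ ε L (W J') s a c ∧ ¬part Φ ε L (W J') s a c := by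
    intro J J' hJ hJ' hij s hs c hn hm hp
    have haJ := (hi J J' hJ hJ' hij).mono hs
    -- it is enough that `c` is the same
    suffices hc : Same Φ ε L (W J) (W J') c s from
      ⟨haJ.mcon hΦ hε (hC.fin J hJ) (hC.fin J' hJ') hc hm,
        fun h => hp (haJ.symm.part hc.symm h)⟩
    obtain ⟨k, hk⟩ := hL c
    rcases hk.altd_or hs with ⟨hkK, hkc⟩ | hc
    swap
    · exact hc J J' hJ hJ'
    obtain ⟨I, hI, hIK, -, hIc⟩ := hk.exists_small hkK hJ
    rcases hi.altd_or hs with ⟨hiK, hia⟩ | ha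
    · by_cases hik : i = k
      · subst hik
        exact (hk J J' hJ hJ' hij).mono hs
      · obtain ⟨I', hI', hIK', -, hIa⟩ := hi.exists_small hiK hJ
        obtain ⟨hne, T, T', h1, h2, h3, h4, h5⟩ := hm
        obtain ⟨S, k1, k2, k3⟩ := live_congr' hΦ hε (hC.fin J hJ) (hC.fin I' hIK')
          (by rw [h1]; exact hIa.1.1) (by rw [h1]; exact fun r hr => hIa.2 r (hr.le.trans hs)) h3
        obtain ⟨S', k1', k2', k3'⟩ := live_congr' hΦ hε (hC.fin J hJ) (hC.fin I hIK)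
          (by rw [h2]; exact hIc.1.1) (by rw [h2]; exact fun r hr => hIc.2 r (hr.le.trans hs)) h4
        refine absurd ?_ (hNB.nocon i hiK k hkK hik s hs a c hne hia hkc I' hI' I hI S S'
          (k1.trans h1) (k1'.trans h2) k2 k2')
        rw [k3, k3']
        exact h5
    · have h1 : ¬altd Φ ε L W k a s := by
        refine not_not.2 ?_
        exact ha ∅ {k} (Finset.empty_subset _) (Finset.singleton_subset_iff.2 hkK)
      refine absurd ?_ (hNB.nobad k hkK s hs a c h1 hkc I hI (by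
        rwa [← (ha J I hJ hIK).2 s le_rfl]))
      exact (ha J I hJ hIK).mcon hΦ hε (hC.fin J hJ) (hC.fin I hIK) (hIc.mono hs) hm
  have key2 : ∀ J J', J ⊆ K → J' ⊆ K → (i ∈ J ↔ i ∈ J') → ∀ s ≤ t₀,
      badi Φ ε L (W J) a s → badi Φ ε L (W J') a s := by
    rintro J J' hJ hJ' hij s hs ⟨h1, h2, h3, h4⟩
    have haJ := (hi J J' hJ hJ' hij).mono hs
    refine ⟨haJ.1.1 h1, h2, h3, ?_⟩
    by_cases hn : stat Φ ε L (W J) a s = none
    · left
      rw [← haJ.2 s le_rfl]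
      exact hn
    · rcases h4 with h4 | ⟨c, h4, h5⟩
      · exact absurd h4 hn
      · right
        exact ⟨c, key J J' hJ hJ' hij s hs c hn h4 h5⟩
  intro s hs
  have h1 := hi J J' hJ hJ' hij
  unfold sta
  rw [Prod.mk.injEq, Prod.mk.injEq]
  refine ⟨propext h1.1, h1.2 s hs, propext ⟨?_, ?_⟩⟩
  · rintro ⟨r, hr, h⟩
    exact ⟨r, hr, key2 J J' hJ hJ' hij r (hr.trans hs) h⟩
  · rintro ⟨r, hr, h⟩
    exact ⟨r, hr, key2 J' J hJ' hJ hij.symm r (hr.trans hs) h⟩

/-- A cube from the dependence on one index. -/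
theorem cube_of_dep {α S : Type*} {Y : FB.Sys α S} {W : Finset ι → Finset α} {K : Finset ι} {t : ℝ}
    (h : ∀ a, ∃ i, ∀ J J', J ⊆ K → J' ⊆ K → (i ∈ J ↔ i ∈ J') →
      ∀ s ≤ t, Y.st (W J) a s = Y.st (W J') a s) : Y.Cube W K t := by
  have h1 : ∀ a i, (∀ J J', J ⊆ K → J' ⊆ K → (i ∈ J ↔ i ∈ J') →
      ∀ s ≤ t, Y.st (W J) a s = Y.st (W J') a s) → ∀ j ∈ K, a ∈ Y.D (W ∅) (W {j}) t → j = i := by
    rintro a i hi j hj ⟨s, hs, hne⟩
    by_contra hji
    refine hne (hi ∅ {j} (Finset.empty_subset _) (Finset.singleton_subset_iff.2 hj) ?_ s hs)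
    rw [Finset.mem_singleton]
    exact ⟨fun h => absurd h (Finset.notMem_empty _), fun h => absurd h.symm hji⟩
  refine ⟨fun i hi j hj hij a hia hja => ?_, fun I J hI hJ a ha s hs => ?_⟩
  · obtain ⟨k, hk⟩ := h a
    exact hij ((h1 a k hk i hi hia).trans (h1 a k hk j hj hja).symm)
  · obtain ⟨k, hk⟩ := h a
    by_cases hkK : k ∈ K
    · by_cases hD : a ∈ Y.D (W ∅) (W {k}) t
      · exact hk I J hI hJ (ha k hkK hD) s hs
      · have h2 := FB.Sys.not_mem_D.1 hD s hs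
        have h3 : ∀ I, I ⊆ K → Y.st (W I) a s = Y.st (W ∅) a s := by
          intro I hI
          by_cases hkI : k ∈ I
          · rw [h2]
            exact hk I {k} hI (Finset.singleton_subset_iff.2 hkK) (by simp [hkI]) s hs
          · exact hk I ∅ hI (Finset.empty_subset _) (by simp [hkI]) s hs
        rw [h3 I hI, h3 J hJ]
    · exact hk I J hI hJ ⟨fun h => absurd (hI h) hkK, fun h => absurd (hJ h) hkK⟩ s hs

end Vale.Agent.P119.M
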