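import Vale.Agent.P119.M.Tree

/-!
# P119: the M-world, hits and survival (`helper472`)

* `hit_of_frequently`, `fh` (first hit time), `fh_hit`;
* `aliveN`, `alive`, the fixed point equation `alive_iff`, and `alive_iff_fh`;
* heredity `alive_left`, `alive_right`, uniqueness `alive_unique`.
-/

open MeasureTheory Filter Topology Set
open scoped ENNReal NNReal

noncomputable section

namespace Vale.Agent.P119.M

open KU CTree

variable {Φ : E3 → ℝ} {ε : ℝ}

/-! ### Distances of free lines -/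

theorem dist_lines_sq (hε : 0 < ε) (q : Ph × Ph) (t : ℝ) :
    ‖(free t q.1).1 - (free t q.2).1‖ ^ 2 =
      ε ^ 2 * (‖perp (rel ε q)‖ ^ 2 + (crd (rel ε q) + t / ε) ^ 2 * ‖(rel ε q).2‖ ^ 2) := by
  have h1 := dist_eq_rel hε (free t q.1, free t q.2)
  have h2 := rel_free hε.ne' q t
  simp only at h1
  rw [h1, h2, mul_pow, norm_free_sq]

theorem lt_dist_of_lt_hitT (hε : 0 < ε) {q : Ph × Ph} (hq : Meets ε q) {t : ℝ}
    (ht : t < hitT ε q) : ε < ‖(free t q.1).1 - (free t q.2).1‖ := by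
  have h1 := dist_lines_sq hε q t
  have h2 : t / ε < tin (rel ε q) := by
    rw [div_lt_iff₀ hε, mul_comm]; exact ht
  have hv : (rel ε q).2 ≠ 0 := hq.1
  have h3 := half_sq hv hq.2.le
  have h4 := half_nonneg (rel ε q)
  have h5 : 0 < ‖(rel ε q).2‖ := norm_pos_iff.2 hv
  have h6 : half (rel ε q) ^ 2 < (crd (rel ε q) + t / ε) ^ 2 := by
    unfold tin at h2
    nlinarith
  have h7 : 1 < ‖perp (rel ε q)‖ ^ 2 + (crd (rel ε q) + t / ε) ^ 2 * ‖(rel ε q).2‖ ^ 2 := by
    have h8 := mul_lt_mul_of_pos_right h6 (by positivity : 0 < ‖(rel ε q).2‖ ^ 2)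
    linarith
  have h9 : ε ^ 2 < ‖(free t q.1).1 - (free t q.2).1‖ ^ 2 := by
    rw [h1]
    have h10 : 0 < ε ^ 2 := by positivity
    nlinarith
  exact lt_of_pow_lt_pow_left₀ 2 (norm_nonneg _) h9

theorem dist_hitT (hε : 0 < ε) {q : Ph × Ph} (hq : Meets ε q) :
    ‖(free (hitT ε q) q.1).1 - (free (hitT ε q) q.2).1‖ = ε := by
  have h1 := dist_lines_sq hε q (hitT ε q)
  have hv : (rel ε q).2 ≠ 0 := hq.1
  have h3 := half_sq hv hq.2.le
  have h2 : crd (rel ε q) + hitT ε q / ε = -half (rel ε q) := by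
    unfold hitT tin
    rw [mul_div_cancel_left₀ _ hε.ne']
    ring
  rw [h2, neg_sq, h3] at h1
  have h4 : ‖(free (hitT ε q) q.1).1 - (free (hitT ε q) q.2).1‖ ^ 2 = ε ^ 2 := by
    rw [h1]; ring
  exact (pow_left_inj₀ (norm_nonneg _) hε.le two_ne_zero).1 h4

theorem inner_hitT (hε : 0 < ε) {q : Ph × Ph} (hq : Meets ε q) :
    (inner ℝ ((free (hitT ε q) q.1).1 - (free (hitT ε q) q.2).1)
      ((free (hitT ε q) q.1).2 - (free (hitT ε q) q.2).2) : ℝ) < 0 := by
  have hv : (rel ε q).2 ≠ 0 := hq.1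
  have h2 : crd (rel ε q) + hitT ε q / ε = -half (rel ε q) := by
    unfold hitT tin
    rw [mul_div_cancel_left₀ _ hε.ne']
    ring
  have h3 := inner_free (rel ε q) (hitT ε q / ε)
  rw [h2, ← rel_free hε.ne'] at h3
  have h4 : (rel ε (free (hitT ε q) q.1, free (hitT ε q) q.2)).1 =
      ε⁻¹ • ((free (hitT ε q) q.1).1 - (free (hitT ε q) q.2).1) := rfl
  have h5 : (rel ε (free (hitT ε q) q.1, free (hitT ε q) q.2)).2 =
      (free (hitT ε q) q.1).2 - (free (hitT ε q) q.2).2 := rfl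
  rw [h4, h5, real_inner_smul_left] at h3
  have h6 : 0 < half (rel ε q) * ‖(rel ε q).2‖ ^ 2 :=
    mul_pos (half_pos hv hq.2) (by have := norm_pos_iff.2 hv; positivity)
  have h7 : 0 < ε⁻¹ := inv_pos.2 hε
  by_contra hcon
  have h8 := mul_nonneg h7.le (not_lt.1 hcon)
  rw [h3] at h8
  linarith

theorem ctc_hitT (hε : 0 < ε) {q : Ph × Ph} (hq : Meets ε q) :
    Ctc ε (free (hitT ε q) q.1) (free (hitT ε q) q.2) :=
  ctc_of_inner_nonpos (dist_hitT hε hq).le (inner_hitT hε hq).le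

/-! ### Hits -/

theorem hit_ext_le {T T' : CTree} {s : ℝ} (h : hit Φ ε T T' s) : ext Φ ε T' ≤ s := by
  induction T with
  | leaf z => exact h.2.1
  | node a b iha ihb =>
    rcases h with ⟨-, h | h⟩ | h
    · exact iha h.1
    · exact ihb h.1
    · exact h.2.1

theorem not_hit_of_subset {T T' : CTree} {s : ℝ} (hT : T.leaves ⊆ T'.leaves) :
    ¬hit Φ ε T T' s := by
  induction T with
  | leaf z => exact fun h => h.2.2.1 (hT (mem_singleton z))
  | node a b iha ihb =>
    rintro (⟨-, h | h⟩ | h)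
    · exact iha (fun x hx => hT (Or.inl hx)) h.1
    · exact ihb (fun x hx => hT (Or.inr hx)) h.1
    · obtain ⟨x, hx⟩ := (node a b).leaves_nonempty
      exact disjoint_left.1 h.2.2.1 hx (hT hx)

theorem hit_nonneg (hΦ : IsPotential Φ) (hε : 0 < ε) {T T' : CTree} (hT : ok Φ ε T) {s : ℝ}
    (h : hit Φ ε T T' s) : 0 ≤ s := by
  induction T with
  | leaf z => exact le_trans hT h.1
  | node a b iha ihb =>
    rcases h with ⟨-, h | h⟩ | h
    · exact iha hT.1 h.1
    · exact ihb hT.2.1 h.1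
    · exact (sig_nonneg hΦ hε hT).trans h.1

/-- After the last collision only the root line is relevant. -/
theorem hit_after (hΦ : IsPotential Φ) (hε : 0 < ε) {T T' : CTree} (hT : ok Φ ε T) {s : ℝ}
    (hs : ext Φ ε T ≤ s) : hit Φ ε T T' s ↔ ext Φ ε T' ≤ s ∧ Disjoint T.leaves T'.leaves ∧
      Ctc ε (free s (ln Φ ε T)) (free s (ln Φ ε T')) := by
  cases T with
  | leaf z =>
    change (z.1 ≤ s ∧ _ ∧ z ∉ T'.leaves ∧ _) ↔ _ ∧ Disjoint {z} T'.leaves ∧ _
    rw [disjoint_singleton_left]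
    have : z.1 ≤ s := hs
    tauto
  | node a b =>
    have h1 := sig_lt_ext hΦ hε hT
    have h2 := pairLine_after hΦ hε hT.2.2.2.2.1 hT.2.2.2.1.2.le (t := s) hs
    constructor
    · rintro (⟨h, -⟩ | ⟨-, h3, h4, h5 | h5⟩)
      · exact absurd h (not_le.2 (h1.trans_le hs))
      · rw [h2] at h5
        exact ⟨h3, h4, h5⟩
      · exact absurd h5.1 (not_lt.2 hs)
    · rintro ⟨h3, h4, h5⟩
      refine Or.inr ⟨(h1.trans_le hs).le, h3, h4, Or.inl ?_⟩
      rw [h2]
      exact h5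

theorem hasDerivAt_free (p : Ph) (s : ℝ) :
    HasDerivAt (fun r => (free r p).1) (free s p).2 s := by
  have h := ((hasDerivAt_id s).smul_const p.2).const_add p.1
  rw [one_smul] at h
  exact h

theorem hasDerivAt_pairLine (hΦ : IsPotential Φ) (hε : 0 < ε) {q : Ph × Ph}
    (hq : q.1.2 - q.2.2 ≠ 0) (s : ℝ) :
    HasDerivAt (fun r => (pairLine Φ ε q r).1.1) (pairLine Φ ε q s).1.2 s ∧
      HasDerivAt (fun r => (pairLine Φ ε q r).2.1) (pairLine Φ ε q s).2.2 s := by
  have h1 := hasDerivAt_free (com q) s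
  have h0 : HasDerivAt (fun r => (traj Φ (rel ε q) r).1) (traj Φ (rel ε q) (s / ε)).2 (s / ε) :=
    (traj_isRed hΦ (p := rel ε q) hq (s / ε)).fst
  have h0' := HasDerivAt.scomp (h := fun r => r / ε) s h0 ((hasDerivAt_id s).div_const ε)
  have h2 : HasDerivAt (fun r => (traj Φ (rel ε q) (r / ε)).1)
      ((1 / ε) • (traj Φ (rel ε q) (s / ε)).2) s := h0'
  have h3 := (h2.const_smul ε).const_smul (2 : ℝ)⁻¹
  have h4 : (2 : ℝ)⁻¹ • ε • (1 / ε) • (traj Φ (rel ε q) (s / ε)).2 =
      (2 : ℝ)⁻¹ • (traj Φ (rel ε q) (s / ε)).2 := by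
    rw [smul_smul ε, mul_one_div_cancel hε.ne', one_smul]
  rw [h4] at h3
  exact ⟨h1.add h3, h1.sub h3⟩

theorem le_of_frequently {c s : ℝ} (h : ∃ᶠ r in 𝓝[>] s, c ≤ r) : c ≤ s := by
  by_contra hcon
  rw [not_le] at hcon
  have h1 : ∀ᶠ r in 𝓝[>] s, r < c := nhdsWithin_le_nhds (Iio_mem_nhds hcon)
  exact h (h1.mono fun r hr => not_le.2 hr)

theorem lt_of_frequently {c s : ℝ} (h : ∃ᶠ r in 𝓝[>] s, r ≤ c) : s < c := by
  obtain ⟨r, hr, hr'⟩ := (h.and_eventually self_mem_nhdsWithin).exists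
  exact lt_of_lt_of_le hr' hr

/-- **The times of the hits are closed under decreasing limits.** -/
theorem hit_of_frequently (hΦ : IsPotential Φ) (hε : 0 < ε) {T T' : CTree} (hT : ok Φ ε T) {s : ℝ}
    (h : ∃ᶠ r in 𝓝[>] s, hit Φ ε T T' r) : hit Φ ε T T' s := by
  induction T with
  | leaf z =>
    refine ⟨le_of_frequently (h.mono fun r hr => hr.1), le_of_frequently
      (h.mono fun r hr => hr.2.1), ?_, ?_⟩
    · obtain ⟨r, hr⟩ := h.exists
      exact hr.2.2.1
    · exact ctc_of_frequently hε.le (X := fun r => free r z.2.1) (Y := fun r => free r _)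
        (hasDerivAt_free _ s).hasDerivWithinAt (hasDerivAt_free _ s).hasDerivWithinAt
        (h.mono fun r hr => hr.2.2.2)
  | node a b iha ihb =>
    have hm := hT.2.2.2.1
    rcases frequently_or_distrib.1 h with h | h
    · left
      have h1 : s < sig Φ ε (node a b) := lt_of_frequently (h.mono fun r hr => hr.1)
      refine ⟨h1.le, ?_⟩
      rcases frequently_or_distrib.1 (h.mono fun r hr => hr.2) with h2 | h2
      · exact Or.inl ⟨iha hT.1 (h2.mono fun r hr => hr.1), fun hcon => h1.ne hcon.2⟩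
      · exact Or.inr ⟨ihb hT.2.1 (h2.mono fun r hr => hr.1), fun hcon => h1.ne hcon.2⟩
    · right
      refine ⟨le_of_frequently (h.mono fun r hr => hr.1),
        le_of_frequently (h.mono fun r hr => hr.2.1), ?_, ?_⟩
      · obtain ⟨r, hr⟩ := h.exists
        exact hr.2.2.1
      · rcases frequently_or_distrib.1 (h.mono fun r hr => hr.2.2.2) with h2 | h2
        · left
          exact ctc_of_frequently hε.le (X := fun r => (pairLine Φ ε (ln Φ ε a, ln Φ ε b) r).1)
            (Y := fun r => free r _) (hasDerivAt_pairLine hΦ hε hm.1 s).1.hasDerivWithinAt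
            (hasDerivAt_free _ s).hasDerivWithinAt h2
        · right
          refine ⟨lt_of_frequently (h2.mono fun r hr => hr.1.le), ?_⟩
          exact ctc_of_frequently hε.le (X := fun r => (pairLine Φ ε (ln Φ ε a, ln Φ ε b) r).2)
            (Y := fun r => free r _) (hasDerivAt_pairLine hΦ hε hm.1 s).2.hasDerivWithinAt
            (hasDerivAt_free _ s).hasDerivWithinAt (h2.mono fun r hr => hr.2)

/-- The time of the first hit. -/
def fh (Φ : E3 → ℝ) (ε : ℝ) (T T' : CTree) : ℝ := sInf {s | hit Φ ε T T' s}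

theorem fh_hit (hΦ : IsPotential Φ) (hε : 0 < ε) {T T' : CTree} (hT : ok Φ ε T) {s : ℝ}
    (h : hit Φ ε T T' s) : hit Φ ε T T' (fh Φ ε T T') :=
  sInf_mem_of_frequently (S := {s | hit Φ ε T T' s}) ⟨s, h⟩
    ⟨0, fun _ hr => hit_nonneg hΦ hε hT hr⟩ (fun _ hs => hit_of_frequently hΦ hε hT hs)

theorem fh_le (hΦ : IsPotential Φ) (hε : 0 < ε) {T T' : CTree} (hT : ok Φ ε T) {s : ℝ}
    (h : hit Φ ε T T' s) : fh Φ ε T T' ≤ s :=
  csInf_le ⟨0, fun _ hr => hit_nonneg hΦ hε hT hr⟩ h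

/-! ### Survival -/

/-- `T` is a tree of the world `W` whose last collision is over at time `t`. -/
structure pre (Φ : E3 → ℝ) (ε : ℝ) (L : ℕ) (W : Set Src) (T : CTree) (t : ℝ) : Prop where
  sub : T.leaves ⊆ W
  ok : T.ok Φ ε
  depth : T.depth ≤ L
  ext_le : T.ext Φ ε ≤ t

/-- The alternating approximations of survival. -/
def aliveN (Φ : E3 → ℝ) (ε : ℝ) (L : ℕ) : ℕ → Set Src → CTree → ℝ → Prop
  | 0, W, T, t => pre Φ ε L W T t
  | n + 1, W, T, t => pre Φ ε L W T t ∧
      ∀ T' s, s < t → hit Φ ε T T' s → ¬aliveN Φ ε L n W T' s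

/-- `T` has survived until `t` (hits at the time `t` are allowed). -/
def alive (Φ : E3 → ℝ) (ε : ℝ) (L : ℕ) (W : Set Src) (T : CTree) (t : ℝ) : Prop :=
  ∃ n, ∀ m, n ≤ m → aliveN Φ ε L m W T t

variable {L : ℕ} {W : Set Src}

theorem aliveN_pre {n : ℕ} {T : CTree} {t : ℝ} (h : aliveN Φ ε L n W T t) :
    pre Φ ε L W T t := by
  cases n with
  | zero => exact h
  | succ n => exact h.1

theorem aliveN_anti {n : ℕ} {T : CTree} {s t : ℝ} (h : aliveN Φ ε L n W T t) (hst : s ≤ t)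
    (hs : ext Φ ε T ≤ s) : aliveN Φ ε L n W T s := by
  have h1 : pre Φ ε L W T s := by
    have := aliveN_pre h
    exact ⟨this.sub, this.ok, this.depth, hs⟩
  cases n with
  | zero => exact h1
  | succ n => exact ⟨h1, fun T' r hr hh => h.2 T' r (hr.trans_le hst) hh⟩

/-- Only the first hits matter. -/
theorem aliveN_succ_iff_fh (hΦ : IsPotential Φ) (hε : 0 < ε) {n : ℕ} {T : CTree} {t : ℝ} :
    aliveN Φ ε L (n + 1) W T t ↔ pre Φ ε L W T t ∧ ∀ T', (∃ s, s < t ∧ hit Φ ε T T' s) →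
      ¬aliveN Φ ε L n W T' (fh Φ ε T T') := by
  constructor
  · rintro ⟨h1, h2⟩
    refine ⟨h1, ?_⟩
    rintro T' ⟨s, hs, hh⟩
    exact h2 T' _ ((fh_le hΦ hε h1.ok hh).trans_lt hs) (fh_hit hΦ hε h1.ok hh)
  · rintro ⟨h1, h2⟩
    refine ⟨h1, fun T' s hs hh h3 => h2 T' ⟨s, hs, hh⟩ ?_⟩
    exact aliveN_anti h3 (fh_le hΦ hε h1.ok hh) (hit_ext_le (fh_hit hΦ hε h1.ok hh))

theorem aliveN_even_odd (n : ℕ) :
    (∀ T t, aliveN Φ ε L (2 * n + 1) W T t → aliveN Φ ε L (2 * n) W T t) ∧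
    (∀ T t, aliveN Φ ε L (2 * n + 1) W T t → aliveN Φ ε L (2 * n + 2) W T t) ∧
    (∀ T t, aliveN Φ ε L (2 * n + 2) W T t → aliveN Φ ε L (2 * n) W T t) ∧
    (∀ T t, aliveN Φ ε L (2 * n + 1) W T t → aliveN Φ ε L (2 * n + 3) W T t) := by
  have mono : ∀ m k : ℕ, (∀ T t, aliveN Φ ε L m W T t → aliveN Φ ε L k W T t) →
      ∀ T t, aliveN Φ ε L (k + 1) W T t → aliveN Φ ε L (m + 1) W T t :=
    fun m k h T t h1 => ⟨h1.1, fun T' s hs hh h2 => h1.2 T' s hs hh (h T' s h2)⟩
  induction n with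
  | zero =>
    have h0 : ∀ m T t, aliveN Φ ε L m W T t → aliveN Φ ε L 0 W T t := fun m T t h => aliveN_pre h
    have h1 := mono 1 0 (h0 1)
    have h2 := mono 2 0 (h0 2)
    exact ⟨h0 1, h1, h0 2, h2⟩
  | succ n ih =>
    obtain ⟨h1, h2, h3, h4⟩ := ih
    have e1 : 2 * (n + 1) = 2 * n + 2 := by ring
    rw [e1]
    have h5 := mono _ _ h3
    have h6 := mono _ _ h4
    have h7 := mono _ _ h2
    -- odd `2n+3` implies even `2n+2`
    have h8 := mono _ _ h7
    have h9 := mono _ _ h6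
    refine ⟨h7, h8, h6, h9⟩

theorem aliveN_anti_level {m n : ℕ} (h : ∀ T t, aliveN Φ ε L m W T t → aliveN Φ ε L n W T t)
    (T : CTree) (t : ℝ) (h1 : aliveN Φ ε L (n + 1) W T t) : aliveN Φ ε L (m + 1) W T t :=
  ⟨h1.1, fun T' s hs hh h2 => h1.2 T' s hs hh (h T' s h2)⟩

/-- Even levels are above all later levels. -/
theorem aliveN_le_even {n m : ℕ} (hnm : 2 * n ≤ m) {T : CTree} {t : ℝ}
    (h : aliveN Φ ε L m W T t) : aliveN Φ ε L (2 * n) W T t := by
  induction n generalizing m T t with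
  | zero => exact aliveN_pre h
  | succ n ih =>
    obtain ⟨k, rfl⟩ : ∃ k, m = k + 2 := ⟨m - 2, by omega⟩
    have h1 : ∀ T t, aliveN Φ ε L k W T t → aliveN Φ ε L (2 * n) W T t :=
      fun T t h => ih (by omega) h
    have h2 := aliveN_anti_level h1
    have h3 := aliveN_anti_level h2
    exact h3 T t h

/-- Odd levels are below all later levels. -/
theorem odd_le_aliveN {n m : ℕ} (hnm : 2 * n + 1 ≤ m) {T : CTree} {t : ℝ}
    (h : aliveN Φ ε L (2 * n + 1) W T t) : aliveN Φ ε L m W T t := by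
  obtain ⟨k, rfl⟩ : ∃ k, m = k + 1 := ⟨m - 1, by omega⟩
  exact aliveN_anti_level (m := k) (n := 2 * n) (fun T t h => aliveN_le_even (by omega) h) T t h

theorem alive_of_odd {n : ℕ} {T : CTree} {t : ℝ} (h : aliveN Φ ε L (2 * n + 1) W T t) :
    alive Φ ε L W T t := ⟨2 * n + 1, fun _ hm => odd_le_aliveN hm h⟩

theorem alive_even {T : CTree} {t : ℝ} (h : alive Φ ε L W T t) (n : ℕ) :
    aliveN Φ ε L (2 * n) W T t := by
  obtain ⟨m, hm⟩ := h
  exact aliveN_le_even (le_max_left _ _) (hm (max (2 * n) m) (le_max_right _ _))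

theorem alive_pre {T : CTree} {t : ℝ} (h : alive Φ ε L W T t) : pre Φ ε L W T t :=
  aliveN_pre (alive_even h 0)

theorem alive_anti {T : CTree} {s t : ℝ} (h : alive Φ ε L W T t) (hst : s ≤ t)
    (hs : ext Φ ε T ≤ s) : alive Φ ε L W T s := by
  obtain ⟨n, hn⟩ := h
  exact ⟨n, fun m hm => aliveN_anti (hn m hm) hst hs⟩

/-- The finite set of candidates for the first hit times. -/
def times (Φ : E3 → ℝ) (ε : ℝ) (L : ℕ) (W : Set Src) : Set ℝ :=
  (fun p : CTree × CTree => fh Φ ε p.1 p.2) ''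
    ({T : CTree | T.leaves ⊆ W ∧ T.depth ≤ L} ×ˢ {T : CTree | T.leaves ⊆ W ∧ T.depth ≤ L})

theorem times_finite (hW : W.Finite) : (times Φ ε L W).Finite :=
  ((finite_depth hW L).prod (finite_depth hW L)).image _

/-- The approximations are stationary once the level is at least the number of candidates before
`t`. -/
theorem aliveN_stable (hΦ : IsPotential Φ) (hε : 0 < ε) (hW : W.Finite) (n : ℕ) :
    ∀ (T : CTree) (t : ℝ), (times Φ ε L W ∩ Iio t).ncard ≤ n →
      (aliveN Φ ε L n W T t ↔ aliveN Φ ε L (n + 1) W T t) := by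
  have hfin : ∀ t, (times Φ ε L W ∩ Iio t).Finite := fun t => (times_finite hW).inter_of_left _
  induction n with
  | zero =>
    intro T t ht
    refine ⟨fun h => ⟨h, fun T' s hs hh h' => ?_⟩, fun h => h.1⟩
    have h0 : (times Φ ε L W ∩ Iio t) = ∅ := (ncard_eq_zero (hfin t)).1 (Nat.le_zero.1 ht)
    have h1 : fh Φ ε T T' ∈ times Φ ε L W ∩ Iio t :=
      ⟨⟨(T, T'), ⟨⟨h.sub, h.depth⟩, ⟨h'.sub, h'.depth⟩⟩, rfl⟩,
        (fh_le hΦ hε h.ok hh).trans_lt hs⟩
    rw [h0] at h1
    exact h1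
  | succ n ih =>
    intro T t ht
    rw [aliveN_succ_iff_fh hΦ hε, aliveN_succ_iff_fh hΦ hε]
    refine and_congr_right fun hp => forall_congr' fun T' => ?_
    refine imp_congr_right ?_
    rintro ⟨s, hs, hh⟩
    by_cases hT' : T'.leaves ⊆ W ∧ T'.depth ≤ L
    · have h1 : fh Φ ε T T' ∈ times Φ ε L W :=
        ⟨(T, T'), ⟨⟨hp.sub, hp.depth⟩, hT'⟩, rfl⟩
      have h2 : fh Φ ε T T' < t := (fh_le hΦ hε hp.ok hh).trans_lt hs
      have h3 : (times Φ ε L W ∩ Iio (fh Φ ε T T')).ncard < (times Φ ε L W ∩ Iio t).ncard := by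
        refine ncard_lt_ncard ?_ (hfin t)
        refine ⟨fun x hx => ⟨hx.1, lt_trans hx.2 h2⟩, fun hcon => ?_⟩
        exact absurd (hcon ⟨h1, h2⟩).2 (lt_irrefl (fh Φ ε T T'))
      rw [ih T' _ (by omega)]
    · have h1 : ∀ k, ¬aliveN Φ ε L k W T' (fh Φ ε T T') := fun k h =>
        hT' ⟨(aliveN_pre h).sub, (aliveN_pre h).depth⟩
      simp only [h1, not_false_eq_true]

theorem alive_iff_aliveN (hΦ : IsPotential Φ) (hε : 0 < ε) (hW : W.Finite) {T : CTree} {t : ℝ}
    {n : ℕ} (hn : (times Φ ε L W ∩ Iio t).ncard ≤ n) :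
    alive Φ ε L W T t ↔ aliveN Φ ε L n W T t := by
  have h1 : ∀ m, n ≤ m → (aliveN Φ ε L n W T t ↔ aliveN Φ ε L m W T t) := by
    intro m hm
    induction m, hm using Nat.le_induction with
    | base => exact Iff.rfl
    | succ m hm ih => exact ih.trans (aliveN_stable hΦ hε hW m T t (hn.trans hm))
  constructor
  · rintro ⟨k, hk⟩
    exact (h1 _ (le_max_left n k)).2 (hk _ (le_max_right n k))
  · intro h
    exact ⟨n, fun m hm => (h1 m hm).1 h⟩

/-- **The fixed point equation.** -/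
theorem alive_iff (hΦ : IsPotential Φ) (hε : 0 < ε) (hW : W.Finite) {T : CTree} {t : ℝ} :
    alive Φ ε L W T t ↔ pre Φ ε L W T t ∧
      ∀ T' s, s < t → hit Φ ε T T' s → ¬alive Φ ε L W T' s := by
  set n := (times Φ ε L W).ncard with hn
  have h1 : ∀ r, (times Φ ε L W ∩ Iio r).ncard ≤ n := fun r =>
    ncard_le_ncard inter_subset_left (times_finite hW)
  rw [alive_iff_aliveN hΦ hε hW ((h1 t).trans (Nat.le_succ n))]
  refine and_congr_right fun _ => forall_congr' fun T' => forall_congr' fun s =>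
    imp_congr_right fun _ => imp_congr_right fun _ => not_congr ?_
  exact (alive_iff_aliveN hΦ hε hW (h1 s)).symm

/-- Only the first hits matter. -/
theorem alive_iff_fh (hΦ : IsPotential Φ) (hε : 0 < ε) (hW : W.Finite) {T : CTree} {t : ℝ} :
    alive Φ ε L W T t ↔ pre Φ ε L W T t ∧
      ∀ T', (∃ s, s < t ∧ hit Φ ε T T' s) → ¬alive Φ ε L W T' (fh Φ ε T T') := by
  rw [alive_iff hΦ hε hW]
  refine and_congr_right fun hp => ⟨?_, ?_⟩
  · rintro h2 T' ⟨s, hs, hh⟩
    exact h2 T' _ ((fh_le hΦ hε hp.ok hh).trans_lt hs) (fh_hit hΦ hε hp.ok hh)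
  · intro h2 T' s hs hh h3
    exact h2 T' ⟨s, hs, hh⟩
      (alive_anti h3 (fh_le hΦ hε hp.ok hh) (hit_ext_le (fh_hit hΦ hε hp.ok hh)))

/-! ### Heredity and uniqueness -/

theorem pre_left {a b : CTree} {t : ℝ} (h : pre Φ ε L W (node a b) t) :
    pre Φ ε L W a (sig Φ ε (node a b)) :=
  ⟨fun _ hx => h.sub (Or.inl hx), h.ok.1,
    (le_max_left a.depth b.depth).trans (Nat.le_of_succ_le h.depth), h.ok.2.2.2.2.2.1.le⟩

theorem pre_right {a b : CTree} {t : ℝ} (h : pre Φ ε L W (node a b) t) :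
    pre Φ ε L W b (sig Φ ε (node a b)) :=
  ⟨fun _ hx => h.sub (Or.inr hx), h.ok.2.1,
    (le_max_right a.depth b.depth).trans (Nat.le_of_succ_le h.depth), h.ok.2.2.2.2.2.2.le⟩

theorem sig_le_of_pre (hΦ : IsPotential Φ) (hε : 0 < ε) {a b : CTree} {t : ℝ}
    (h : pre Φ ε L W (node a b) t) : sig Φ ε (node a b) < t :=
  (sig_lt_ext hΦ hε h.ok).trans_le h.ext_le

/-- The left subtree is alive at the time of the last collision. -/
theorem alive_left (hΦ : IsPotential Φ) (hε : 0 < ε) (hW : W.Finite) {a b : CTree} {t : ℝ}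
    (h : alive Φ ε L W (node a b) t) : alive Φ ε L W a (sig Φ ε (node a b)) := by
  rw [alive_iff hΦ hε hW] at h ⊢
  refine ⟨pre_left h.1, fun T' s hs hh => ?_⟩
  exact h.2 T' s (hs.trans (sig_le_of_pre hΦ hε h.1))
    (Or.inl ⟨hs.le, Or.inl ⟨hh, fun hcon => hs.ne hcon.2⟩⟩)

theorem alive_right (hΦ : IsPotential Φ) (hε : 0 < ε) (hW : W.Finite) {a b : CTree} {t : ℝ}
    (h : alive Φ ε L W (node a b) t) : alive Φ ε L W b (sig Φ ε (node a b)) := by
  rw [alive_iff hΦ hε hW] at h ⊢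
  refine ⟨pre_right h.1, fun T' s hs hh => ?_⟩
  exact h.2 T' s (hs.trans (sig_le_of_pre hΦ hε h.1))
    (Or.inl ⟨hs.le, Or.inr ⟨hh, fun hcon => hs.ne hcon.2⟩⟩)

/-- The two partners hit each other at the time of the collision. -/
theorem hit_sig (hΦ : IsPotential Φ) (hε : 0 < ε) {a b : CTree} (h : ok Φ ε (node a b)) :
    hit Φ ε a b (sig Φ ε (node a b)) := by
  refine (hit_after hΦ hε h.1 h.2.2.2.2.2.1.le).2 ?_
  exact ⟨h.2.2.2.2.2.2.le, h.2.2.1, ctc_hitT hε h.2.2.2.1⟩

theorem hit_sig' (hΦ : IsPotential Φ) (hε : 0 < ε) {a b : CTree} (h : ok Φ ε (node a b)) :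
    hit Φ ε b a (sig Φ ε (node a b)) := by
  have h1 := hit_sig hΦ hε (ok_swap hΦ h)
  rwa [sig_swap a b] at h1

/-- `Spine S T`: the history `S` is an earlier history of the root particle of `T`. -/
inductive Spine : CTree → CTree → Prop
  | refl (T : CTree) : Spine T T
  | left {S a : CTree} (b : CTree) (h : Spine S a) : Spine S (node a b)

theorem Spine.root_eq {S T : CTree} (h : Spine S T) : S.root = T.root := by
  induction h with
  | refl => rfl
  | left b _ ih => exact ih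

theorem Spine.leaves_subset {S T : CTree} (h : Spine S T) : S.leaves ⊆ T.leaves := by
  induction h with
  | refl => exact subset_rfl
  | left b _ ih => exact ih.trans subset_union_left

theorem Spine.card_le {S T : CTree} (h : Spine S T) : S.card ≤ T.card := by
  induction h with
  | refl => exact le_rfl
  | left b _ ih => exact ih.trans (Nat.le_add_right _ _)

theorem Spine.trans {S T U : CTree} (h : Spine S T) (h' : Spine T U) : Spine S U := by
  induction h' with
  | refl => exact h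
  | left b _ ih => exact Spine.left b ih

theorem Spine.leaf (T : CTree) : Spine (CTree.leaf T.root) T := by
  induction T with
  | leaf z => exact Spine.refl _
  | node a b iha _ => exact Spine.left b iha

theorem Spine.of_node {S a b : CTree} (h : Spine (node S b) a) : Spine S a :=
  (Spine.left b (Spine.refl S)).trans h

theorem Spine.antisymm {S T : CTree} (h : Spine S T) (h' : Spine T S) : S = T := by
  cases h with
  | refl => rfl
  | left b h1 =>
    have := (h'.trans h1).card_le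
    have h2 : 0 < b.card := b.card_pos
    simp only [CTree.card] at this
    omega

/-- Earlier histories of an alive tree were alive at the time of the next collision. -/
theorem alive_spine (hΦ : IsPotential Φ) (hε : 0 < ε) (hW : W.Finite) {S T : CTree} {t : ℝ}
    (h : alive Φ ε L W T t) (hS : Spine S T) (hne : S ≠ T) :
    ∃ b t', Spine (node S b) T ∧ alive Φ ε L W (node S b) t' ∧ t' ≤ t := by
  induction hS generalizing t with
  | refl => exact absurd rfl hne
  | @left a b hS ih =>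
    by_cases hSa : S = a
    · subst hSa
      exact ⟨b, t, Spine.refl _, h, le_rfl⟩
    · obtain ⟨c, t', h1, h2, h3⟩ := ih (alive_left hΦ hε hW h) hSa
      exact ⟨c, t', Spine.left b h1, h2,
        h3.trans (sig_le_of_pre hΦ hε (alive_pre h)).le⟩

/-- Two collisions of the same history are the same collision. -/
theorem node_unique (hΦ : IsPotential Φ) (hε : 0 < ε) (hW : W.Finite) {S b c : CTree} {t t' : ℝ}
    (h : alive Φ ε L W (node S b) t) (h' : alive Φ ε L W (node S c) t') : b = c := by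
  have hb := (alive_iff hΦ hε hW).1 h
  have hc := (alive_iff hΦ hε hW).1 h'
  have hSb := (alive_iff hΦ hε hW).1 (alive_left hΦ hε hW h)
  have hSc := (alive_iff hΦ hε hW).1 (alive_left hΦ hε hW h')
  rcases lt_trichotomy (sig Φ ε (node S b)) (sig Φ ε (node S c)) with h1 | h1 | h1
  · exact absurd (alive_right hΦ hε hW h) (hSc.2 b _ h1 (hit_sig hΦ hε hb.1.ok))
  · by_contra hne
    refine hb.2 c _ (sig_le_of_pre hΦ hε hb.1) (Or.inl ⟨le_rfl, Or.inl ⟨?_, fun h => hne h.1.symm⟩⟩)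
      ?_
    · rw [h1]; exact hit_sig hΦ hε hc.1.ok
    · rw [h1]; exact alive_right hΦ hε hW h'
  · exact absurd (alive_right hΦ hε hW h') (hSb.2 c _ h1 (hit_sig hΦ hε hc.1.ok))

theorem alive_comparable (hΦ : IsPotential Φ) (hε : 0 < ε) (hW : W.Finite) {T T' : CTree}
    {t t' : ℝ} (h : alive Φ ε L W T t) (h' : alive Φ ε L W T' t') (hr : T.root = T'.root) :
    Spine T T' ∨ Spine T' T := by
  induction T generalizing t with
  | leaf z =>
    change z = T'.root at hr
    left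
    rw [hr]
    exact Spine.leaf T'
  | node a b iha _ =>
    rcases iha (alive_left hΦ hε hW h) hr with h1 | h1
    · by_cases hne : a = T'
      · right
        rw [← hne]
        exact Spine.left b (Spine.refl a)
      · obtain ⟨c, s, h2, h3, -⟩ := alive_spine hΦ hε hW h' h1 hne
        have := node_unique hΦ hε hW h h3
        subst this
        exact Or.inl h2
    · exact Or.inr (Spine.left b h1)

/-- **The history of a particle is unique.** -/
theorem alive_unique (hΦ : IsPotential Φ) (hε : 0 < ε) (hW : W.Finite) {T T' : CTree} {t : ℝ}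
    (h : alive Φ ε L W T t) (h' : alive Φ ε L W T' t) (hr : T.root = T'.root) : T = T' := by
  have key : ∀ S U : CTree, alive Φ ε L W S t → alive Φ ε L W U t → Spine S U → S = U := by
    intro S U hS hU hSU
    by_contra hne
    obtain ⟨b, s, h1, h2, h3⟩ := alive_spine hΦ hε hW hU hSU hne
    have h4 := (alive_iff hΦ hε hW).1 hS
    exact h4.2 b _ ((sig_le_of_pre hΦ hε (alive_pre h2)).trans_le h3)
      (hit_sig hΦ hε (alive_pre h2).ok) (alive_right hΦ hε hW h2)
  rcases alive_comparable hΦ hε hW h h' hr with h1 | h1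
  · exact key T T' h h' h1
  · exact (key T' T h' h h1).symm

end Vale.Agent.P119.M
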